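import Vale.Agent.Lib.P050.Main

/-!
# P050 module CH: abstract chain graphs are good targets   (FROZEN statements)

ROUTE for `sidTarget_of_iso`: an isomorphism `e : G ≃g G'` gives `(H →g G) ≃ (H →g G')`
(compose with `e.toHom` / `e.symm.toHom`), `Nat.card W = Nat.card W'` (`e.toEquiv`) and
`Nat.card G.edgeSet = Nat.card G'.edgeSet` (`e.mapEdgeSet`), so `SidPair H G ↔ SidPair H G'`.

ROUTE for `sidTarget_of_isChain`: let `X` be the given side, `Y = Xᶜ`.
* If `X` or `Y` is empty then `G` has no edge, `edens G = 0`, and `0 ^ m = 0 ≤ tdens` as `m ≥ 1`.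
* Otherwise the neighbourhoods of the vertices of `Y` are nested too (if `x ∈ N(y) \ N(y')` and
  `x' ∈ N(y') \ N(y)` then `N(x)`, `N(x')` are incomparable).  Sort both sides by degree
  (`Tuple.sort` on `deg ∘ (Fintype.equivFin _).symm`, `Tuple.monotone_sort`): bijections
  `eX : Fin a ≃ X`, `eY : Fin b ≃ Y` with `i ≤ i' → N(eX i) ⊆ N(eX i')` (nested + `card` monotone),
  same for `Y`.  Put `R i j := G.Adj (eX i) (eY j)`; it is monotone in both variables;
  `bip R ≃g G` via `Sum.elim`; apply `sidTarget_bip` (`Fin a`, `Fin b` are distributive lattices,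
  nonempty since `a, b ≥ 1`: write `a = a' + 1`) and `sidTarget_of_iso`.
-/

namespace Vale.Agent.P050

open SimpleGraph

/-- Chain graphs (difference graphs): bipartite graphs in which the neighbourhoods of the
vertices of one side are totally ordered by inclusion. -/
def IsChain {W : Type} (G : SimpleGraph W) : Prop :=
  ∃ X : Set W, (∀ u v, G.Adj u v → (u ∈ X ↔ v ∉ X)) ∧
    ∀ x ∈ X, ∀ x' ∈ X, G.neighborSet x ⊆ G.neighborSet x' ∨ G.neighborSet x' ⊆ G.neighborSet x

theorem sidTarget_of_iso {W W' : Type} {G : SimpleGraph W} {G' : SimpleGraph W'} (e : G ≃g G')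
    (h : SidTarget G) : SidTarget G' := by
  intro V _ H hb he
  have h0 := h V H hb he
  have e1 : Nat.card (H →g G') = Nat.card (H →g G) := by
    apply Nat.card_congr
    exact
      { toFun := fun ψ => e.symm.toHom.comp ψ
        invFun := fun φ => e.toHom.comp φ
        left_inv := by intro ψ; ext v; simp
        right_inv := by intro φ; ext v; simp }
  have e2 : Nat.card W' = Nat.card W := Nat.card_congr e.toEquiv.symm
  have e3 : Nat.card G'.edgeSet = Nat.card G.edgeSet := Nat.card_congr e.mapEdgeSet.symm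
  unfold SidPair edens tdens homs at *
  rw [e1, e2, e3]
  exact h0

private lemma sidTarget_of_no_edges {W : Type} (G : SimpleGraph W) (h : ∀ u v, ¬ G.Adj u v) :
    SidTarget G := by
  intro V _ H _ he
  have e0 : Nat.card G.edgeSet = 0 := by
    have : IsEmpty G.edgeSet := ⟨by
      rintro ⟨e, he⟩
      induction e using Sym2.ind with
      | _ u v => exact h u v he⟩
    exact Nat.card_of_isEmpty
  have hpos : Nat.card H.edgeSet ≠ 0 := by
    have : Nonempty H.edgeSet := he.to_subtype
    exact Nat.card_pos.ne'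
  unfold SidPair edens tdens
  rw [e0]
  simp only [Nat.cast_zero, mul_zero, zero_div]
  rw [zero_pow hpos]
  positivity

private lemma exists_linearOrder (T : Type) [Finite T] (k : T → ℕ) :
    ∃ _ : LinearOrder T, ∀ t t' : T, t ≤ t' → k t ≤ k t' := by
  obtain ⟨idx, hidx⟩ := Countable.exists_injective_nat T
  let f : T → ℕ ×ₗ ℕ := fun t => toLex (k t, idx t)
  have hf : Function.Injective f := by
    intro a b hab
    have : (k a, idx a) = (k b, idx b) := toLex.injective hab
    exact hidx (Prod.ext_iff.1 this).2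
  refine ⟨LinearOrder.lift' f hf, ?_⟩
  intro t t' htt
  have h1 : f t ≤ f t' := htt
  rw [Prod.Lex.le_iff] at h1
  rcases h1 with h1 | h1
  · exact le_of_lt h1
  · exact le_of_eq h1.1

private lemma subset_of_ncard_le {W : Type} [Finite W] (G : SimpleGraph W) {a b : W}
    (hn : G.neighborSet a ⊆ G.neighborSet b ∨ G.neighborSet b ⊆ G.neighborSet a)
    (hc : (G.neighborSet a).ncard ≤ (G.neighborSet b).ncard) :
    G.neighborSet a ⊆ G.neighborSet b := by
  rcases hn with hn | hn
  · exact hn
  · exact (Set.eq_of_subset_of_ncard_le hn hc (Set.toFinite _)).ge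

theorem sidTarget_of_isChain {W : Type} [Finite W] [Nonempty W] (G : SimpleGraph W)
    (hG : IsChain G) : SidTarget G := by
  classical
  obtain ⟨X, hbip, hnest⟩ := hG
  by_cases hX : X.Nonempty
  swap
  · apply sidTarget_of_no_edges
    intro u v huv
    have h1 := hbip u v huv
    have hu : u ∉ X := fun h => hX ⟨u, h⟩
    have hv : v ∉ X := fun h => hX ⟨v, h⟩
    exact hu (h1.2 hv)
  by_cases hY : (Xᶜ : Set W).Nonempty
  swap
  · apply sidTarget_of_no_edges
    intro u v huv
    have h1 := hbip u v huv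
    have hu : u ∈ X := by
      by_contra h
      exact hY ⟨u, h⟩
    have hv : v ∈ X := by
      by_contra h
      exact hY ⟨v, h⟩
    exact h1.1 hu hv
  -- the other side is nested too
  have hnestY : ∀ y ∈ (Xᶜ : Set W), ∀ y' ∈ (Xᶜ : Set W),
      G.neighborSet y ⊆ G.neighborSet y' ∨ G.neighborSet y' ⊆ G.neighborSet y := by
    intro y hy y' hy'
    by_contra hcon
    rw [not_or] at hcon
    obtain ⟨h1, h2⟩ := hcon
    obtain ⟨x, hx, hx'⟩ := Set.not_subset.1 h1
    obtain ⟨z, hz, hz'⟩ := Set.not_subset.1 h2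
    have hxX : x ∈ X := by
      by_contra h
      exact hy ((hbip y x hx).2 h)
    have hzX : z ∈ X := by
      by_contra h
      exact hy' ((hbip y' z hz).2 h)
    rcases hnest x hxX z hzX with h | h
    · exact hz' ((h ((show G.Adj y x from hx).symm : G.Adj x y) : G.Adj z y).symm)
    · exact hx' ((h ((show G.Adj y' z from hz).symm : G.Adj z y') : G.Adj x y').symm)
  obtain ⟨oX, hoX⟩ := exists_linearOrder X (fun x => (G.neighborSet x.1).ncard)
  obtain ⟨oY, hoY⟩ := exists_linearOrder (Xᶜ : Set W) (fun y => (G.neighborSet y.1).ncard)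
  let _ := oX
  let _ := oY
  let _ : Fintype X := Fintype.ofFinite X
  let _ : Fintype (Xᶜ : Set W) := Fintype.ofFinite _
  have : Nonempty X := hX.to_subtype
  have : Nonempty (Xᶜ : Set W) := hY.to_subtype
  let R : X → (Xᶜ : Set W) → Prop := fun x y => G.Adj x.1 y.1
  have hR : ∀ x x' y y', x ≤ x' → y ≤ y' → R x y → R x' y' := by
    intro x x' y y' hxx hyy hxy
    have s1 : G.neighborSet x.1 ⊆ G.neighborSet x'.1 :=
      subset_of_ncard_le G (hnest x.1 x.2 x'.1 x'.2) (hoX x x' hxx)
    have s2 : G.neighborSet y.1 ⊆ G.neighborSet y'.1 :=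
      subset_of_ncard_le G (hnestY y.1 y.2 y'.1 y'.2) (hoY y y' hyy)
    have a1 : G.Adj x'.1 y.1 := s1 hxy
    have a2 : G.Adj y'.1 x'.1 := s2 a1.symm
    exact a2.symm
  have key := sidTarget_bip R hR
  refine sidTarget_of_iso (G := bip R) ?_ key
  refine ⟨Equiv.Set.sumCompl X, ?_⟩
  intro a b
  rcases a with x | y <;> rcases b with x' | y'
  · simp only [Equiv.Set.sumCompl_apply_inl]
    constructor
    · intro h
      exact absurd x'.2 ((hbip _ _ h).1 x.2)
    · rintro (⟨p, q, h1, h2, -⟩ | ⟨p, q, h1, h2, -⟩)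
      · simp at h2
      · simp at h1
  · simp only [Equiv.Set.sumCompl_apply_inl, Equiv.Set.sumCompl_apply_inr]
    constructor
    · intro h
      exact Or.inl ⟨x, y', rfl, rfl, h⟩
    · rintro (⟨p, q, h1, h2, h3⟩ | ⟨p, q, h1, h2, -⟩)
      · obtain rfl := Sum.inl.inj h1
        obtain rfl := Sum.inr.inj h2
        exact h3
      · simp at h1
  · simp only [Equiv.Set.sumCompl_apply_inl, Equiv.Set.sumCompl_apply_inr]
    constructor
    · intro h
      exact Or.inr ⟨x', y, rfl, rfl, h.symm⟩
    · rintro (⟨p, q, h1, h2, -⟩ | ⟨p, q, h1, h2, h3⟩)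
      · simp at h1
      · obtain rfl := Sum.inr.inj h1
        obtain rfl := Sum.inl.inj h2
        exact (h3 : G.Adj _ _).symm
  · simp only [Equiv.Set.sumCompl_apply_inr]
    constructor
    · intro h
      exact absurd ((hbip _ _ h).2 y'.2) y.2
    · rintro (⟨p, q, h1, h2, -⟩ | ⟨p, q, h1, h2, -⟩)
      · simp at h1
      · simp at h2

end Vale.Agent.P050
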