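import Vale.Agent.Lib.P050.Defs

/-!
# P050 module C: reduction to connected `H`   (FROZEN statement)

ROUTE. Strong induction on `Nat.card V`.
* `V` empty: `homs = 1`, `Nat.card V = 0`, no edges: both sides are `1`.
* `H` connected: use `h`.
* otherwise (`V` nonempty, `H` not connected): let `s` be the support of the connected component
  of some vertex; `s` and `sᶜ` are nonempty proper and no edge of `H` joins `s` to `sᶜ`.  Then
  `homs H G = homs (H.induce s) G * homs (H.induce sᶜ) G`  (restrict / glue),
  `Nat.card H.edgeSet = Nat.card (H.induce s).edgeSet + Nat.card (H.induce sᶜ).edgeSet`,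
  `Nat.card V = Nat.card s + Nat.card sᶜ`, induced subgraphs of 2-colourable graphs are
  2-colourable, so `tdens` is multiplicative and `pow_add` finishes (`0 ≤ edens G`).
  (An alternative: build `H ≃g H.induce s ⊕g H.induce sᶜ` and prove the three facts for `⊕g`.)
-/

namespace Vale.Agent.P050

open SimpleGraph

section split

variable {V W : Type} (H : SimpleGraph V) (G : SimpleGraph W) (s : Set V)

open Classical in
/-- restrict / glue -/
private noncomputable def homSplit (hs : ∀ u v, H.Adj u v → (u ∈ s ↔ v ∈ s)) :
    (H →g G) ≃ (H.induce s →g G) × (H.induce sᶜ →g G) where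
  toFun φ := (φ.comp (Embedding.induce s).toHom, φ.comp (Embedding.induce sᶜ).toHom)
  invFun p :=
    { toFun := fun v => if hv : v ∈ s then p.1 ⟨v, hv⟩ else p.2 ⟨v, hv⟩
      map_rel' := by
        intro u v huv
        by_cases hu : u ∈ s
        · have hv : v ∈ s := (hs u v huv).1 hu
          simp only [hu, hv, dite_true]
          exact p.1.map_rel (by simpa using huv)
        · have hv : v ∉ s := fun h => hu ((hs u v huv).2 h)
          simp only [hu, hv, dite_false]
          exact p.2.map_rel (by simpa using huv) }
  left_inv φ := by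
    ext v
    by_cases hv : v ∈ s <;> simp
  right_inv p := by
    ext ⟨v, hv⟩
    · have : v ∈ s := hv
      simp [this]
    · have : v ∉ s := hv
      simp [this]

private lemma homs_split (hs : ∀ u v, H.Adj u v → (u ∈ s ↔ v ∈ s)) :
    homs H G = homs (H.induce s) G * homs (H.induce sᶜ) G := by
  unfold homs
  rw [Nat.card_congr (homSplit H G s hs), Nat.card_prod]

private lemma edges_split [Finite V] (hs : ∀ u v, H.Adj u v → (u ∈ s ↔ v ∈ s)) :
    Nat.card H.edgeSet = Nat.card (H.induce s).edgeSet + Nat.card (H.induce sᶜ).edgeSet := by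
  rw [← Nat.card_sum]
  symm
  apply Nat.card_congr
  refine Equiv.ofBijective
    (Sum.elim (Embedding.induce s).mapEdgeSet (Embedding.induce (G := H) sᶜ).mapEdgeSet) ⟨?_, ?_⟩
  · have cross : ∀ (a : (H.induce s).edgeSet) (b : (H.induce sᶜ).edgeSet),
        (Embedding.induce s).mapEdgeSet a ≠ (Embedding.induce (G := H) sᶜ).mapEdgeSet b := by
      rintro ⟨a, ha⟩ ⟨b, hb⟩ hab
      have hab' : Sym2.map (Subtype.val : s → V) a = Sym2.map (Subtype.val : (sᶜ : Set V) → V) b :=
        congrArg Subtype.val hab
      induction a using Sym2.ind with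
      | _ x y =>
        have hx : (x : V) ∈ Sym2.map (Subtype.val : s → V) s(x, y) :=
          Sym2.mem_map.2 ⟨x, Sym2.mem_mk_left x y, rfl⟩
        rw [hab'] at hx
        obtain ⟨c, -, hc⟩ := Sym2.mem_map.1 hx
        exact c.2 (hc ▸ x.2)
    rintro (a | a) (b | b) hab
    · exact congrArg Sum.inl ((Embedding.induce s).mapEdgeSet.injective hab)
    · exact absurd hab (cross a b)
    · exact absurd hab.symm (cross b a)
    · exact congrArg Sum.inr ((Embedding.induce (G := H) sᶜ).mapEdgeSet.injective hab)
  · rintro ⟨e, he⟩
    induction e using Sym2.ind with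
    | _ u v =>
      have huv : H.Adj u v := he
      by_cases hu : u ∈ s
      · have hv : v ∈ s := (hs u v huv).1 hu
        refine ⟨Sum.inl ⟨s(⟨u, hu⟩, ⟨v, hv⟩), by simpa using huv⟩, ?_⟩
        apply Subtype.ext
        rfl
      · have hv : v ∉ s := fun h => hu ((hs u v huv).2 h)
        refine ⟨Sum.inr ⟨s(⟨u, hu⟩, ⟨v, hv⟩), by simpa using huv⟩, ?_⟩
        apply Subtype.ext
        rfl

private lemma card_split [Finite V] : Nat.card V = Nat.card s + Nat.card (sᶜ : Set V) := by
  classical
  rw [← Nat.card_sum]
  exact Nat.card_congr (Equiv.Set.sumCompl s).symm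

end split

private lemma edens_nonneg {W : Type} (G : SimpleGraph W) : 0 ≤ edens G := by
  unfold edens; positivity

private lemma sidPair_split {V W : Type} [Finite V] (H : SimpleGraph V) (G : SimpleGraph W)
    (s : Set V) (hs : ∀ u v, H.Adj u v → (u ∈ s ↔ v ∈ s))
    (h1 : SidPair (H.induce s) G) (h2 : SidPair (H.induce sᶜ) G) : SidPair H G := by
  unfold SidPair tdens at *
  rw [edges_split H s hs, homs_split H G s hs, card_split s, pow_add, pow_add, Nat.cast_mul,
    mul_div_mul_comm]
  exact mul_le_mul h1 h2 (pow_nonneg (edens_nonneg G) _) (by positivity)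

private theorem aux {W : Type} [Finite W] [Nonempty W] (G : SimpleGraph W)
    (h : ∀ (V : Type) [Finite V] (H : SimpleGraph V), H.Connected → H.IsBipartite → SidPair H G) :
    ∀ (n : ℕ) (V : Type) [Finite V] (H : SimpleGraph V), Nat.card V = n → H.IsBipartite →
      SidPair H G := by
  intro n
  induction n using Nat.strong_induction_on with
  | _ n ih =>
    intro V _ H hn hb
    by_cases hc : H.Connected
    · exact h V H hc hb
    rcases isEmpty_or_nonempty V with hV | hV
    · have e0 : Nat.card H.edgeSet = 0 := by
        have : IsEmpty H.edgeSet := ⟨by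
          rintro ⟨e, -⟩
          induction e using Sym2.ind with
          | _ u v => exact isEmptyElim u⟩
        exact Nat.card_of_isEmpty
      have h1 : homs H G = 1 := by
        unfold homs
        have : Unique (H →g G) :=
          { default := ⟨fun v => isEmptyElim v, fun {a} => isEmptyElim a⟩
            uniq := fun φ => by ext v; exact isEmptyElim v }
        exact Nat.card_unique
      unfold SidPair tdens
      rw [e0, h1, (Nat.card_of_isEmpty : Nat.card V = 0)]
      simp
    · obtain ⟨v⟩ := hV
      set s : Set V := (H.connectedComponentMk v).supp with hs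
      have hcross : ∀ u w, H.Adj u w → (u ∈ s ↔ w ∈ s) := by
        intro u w huw
        rw [hs, ConnectedComponent.mem_supp_iff, ConnectedComponent.mem_supp_iff,
          ConnectedComponent.connectedComponentMk_eq_of_adj huw]
      have hvs : v ∈ s := by rw [hs, ConnectedComponent.mem_supp_iff]
      have hne : (sᶜ : Set V).Nonempty := by
        by_contra hemp
        apply hc
        rw [connected_iff_exists_forall_reachable]
        refine ⟨v, fun w => ?_⟩
        have hw : w ∈ s := by
          by_contra hw
          exact hemp ⟨w, hw⟩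
        rw [hs, ConnectedComponent.mem_supp_iff, ConnectedComponent.eq] at hw
        exact hw.symm
      have hcard := card_split s
      have p1 : 0 < Nat.card s := by
        have : Nonempty s := ⟨⟨v, hvs⟩⟩
        exact Nat.card_pos
      have p2 : 0 < Nat.card (sᶜ : Set V) := by
        have : Nonempty (sᶜ : Set V) := hne.to_subtype
        exact Nat.card_pos
      refine sidPair_split H G s hcross ?_ ?_
      · exact ih (Nat.card s) (by omega) s (H.induce s) rfl
          (Colorable.of_hom (Embedding.induce s).toHom hb)
      · exact ih (Nat.card (sᶜ : Set V)) (by omega) (sᶜ : Set V) (H.induce sᶜ) rfl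
          (Colorable.of_hom (Embedding.induce sᶜ).toHom hb)

theorem sidPair_of_forall_connected {W : Type} [Finite W] [Nonempty W] (G : SimpleGraph W)
    (h : ∀ (V : Type) [Finite V] (H : SimpleGraph V), H.Connected → H.IsBipartite → SidPair H G) :
    ∀ (V : Type) [Finite V] (H : SimpleGraph V), H.IsBipartite → SidPair H G :=
  fun V _ H hb => aux G h (Nat.card V) V H rfl hb

end Vale.Agent.P050
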