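import Vale.Agent.Lib.P050.Defs

/-!
# P050 module K2: counting lemmas   (FROZEN statements, four independent lemmas)

* `marginal`: two distinct coordinates of a uniformly random `ω : V → L` are independent uniform.
  ROUTE: `(V → L) ≃ L × L × ({w // w ≠ u ∧ w ≠ v} → L)` (`Equiv.funSplitAt` twice, or
  `Equiv.piEquivPiSubtypeProd`), or `Finset.card_eq_sum_card_fiberwise` + equal fibres.
* `fibre_bound`: the map `ω ↦ fun v => if col v then inl (ω v).1 else inr (ω v).2` sends the left
  set into the right set and has fibres of size at most `|Y|^a |X|^b` (the unused coordinates);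
  `Finset.card_le_mul_card_image` + `Fintype.card_piFinset`.
* `card_oriented`: every edge has exactly one orientation starting in colour `true`.
* `card_edgeSet_bip`: edges of `bip R` correspond to the pairs in `R`.
-/

namespace Vale.Agent.P050

open SimpleGraph

theorem marginal {L V : Type} [Fintype L] [Fintype V] (u v : V) (huv : u ≠ v)
    (P : L → L → Prop) :
    Nat.card {ω : V → L // P (ω u) (ω v)} * Fintype.card L ^ 2 =
      Fintype.card L ^ Fintype.card V * Nat.card {q : L × L // P q.1 q.2} := by
  classical
  have e : {ω : V → L // P (ω u) (ω v)} × (L × L) ≃ (V → L) × {q : L × L // P q.1 q.2} :=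
    { toFun := fun x => (Function.update (Function.update x.1.1 u x.2.1) v x.2.2,
        ⟨(x.1.1 u, x.1.1 v), x.1.2⟩)
      invFun := fun y => (⟨Function.update (Function.update y.1 u y.2.1.1) v y.2.1.2, by
        have := y.2.2
        simpa [Function.update_apply, huv, huv.symm] using this⟩, (y.1 u, y.1 v))
      left_inv := by
        rintro ⟨⟨ω, hω⟩, a, b⟩
        simp only [Prod.mk.injEq, Subtype.mk.injEq]
        refine ⟨?_, ?_, ?_⟩
        · funext w
          by_cases hwv : w = v
          · subst hwv; simp
          · by_cases hwu : w = u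
            · subst hwu; simp [hwv]
            · simp [hwv, hwu]
        · simp [huv]
        · simp
      right_inv := by
        rintro ⟨ω, ⟨a, b⟩, hq⟩
        simp only [Prod.mk.injEq, Subtype.mk.injEq]
        refine ⟨?_, ?_, ?_⟩
        · funext w
          by_cases hwv : w = v
          · subst hwv; simp
          · by_cases hwu : w = u
            · subst hwu; simp [hwv]
            · simp [hwv, hwu]
        · simp [huv]
        · simp }
  have h := Nat.card_congr e
  rw [Nat.card_prod, Nat.card_prod, Nat.card_prod, Nat.card_fun,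
    Nat.card_eq_fintype_card (α := L), Nat.card_eq_fintype_card (α := V)] at h
  rw [sq]
  exact h

theorem fibre_bound {X Y V : Type} [Fintype X] [Fintype Y] [Fintype V] (R : X → Y → Prop)
    (H : SimpleGraph V) (col : V → Bool) (hcol : ∀ u v, H.Adj u v → col u ≠ col v) :
    Nat.card {ω : V → X × Y // ∀ u v, H.Adj u v → col u = true → R (ω u).1 (ω v).2} ≤
      Nat.card {f : H →g bip R // ∀ v, (f v).isLeft = col v} *
        (Fintype.card Y ^ Nat.card {v // col v = true} *
          Fintype.card X ^ Nat.card {v // col v = false}) := by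
  classical
  have : Finite (H →g bip R) := DFunLike.finite _
  let Φ : {ω : V → X × Y // ∀ u v, H.Adj u v → col u = true → R (ω u).1 (ω v).2} →
      {f : H →g bip R // ∀ v, (f v).isLeft = col v} ×
        (({v // col v = true} → Y) × ({v // col v = false} → X)) := fun ω =>
    (⟨⟨fun v => if col v = true then Sum.inl (ω.1 v).1 else Sum.inr (ω.1 v).2, by
        intro a b hab
        have hne := hcol a b hab
        by_cases ha : col a = true
        · have hb : col b = false := by
            cases hb : col b
            · rfl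
            · exact absurd (ha.trans hb.symm) hne
          left
          exact ⟨(ω.1 a).1, (ω.1 b).2, by simp [ha], by simp [hb], ω.2 a b hab ha⟩
        · have ha' : col a = false := by simpa using ha
          have hb : col b = true := by
            cases hb : col b
            · exact absurd (ha'.trans hb.symm) hne
            · rfl
          right
          exact ⟨(ω.1 b).1, (ω.1 a).2, by simp [ha'], by simp [hb], ω.2 b a hab.symm hb⟩⟩, by
        intro v
        show (if col v = true then (Sum.inl (ω.1 v).1 : X ⊕ Y) else Sum.inr (ω.1 v).2).isLeft = col v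
        cases hv : col v <;> simp⟩,
      (fun v => (ω.1 v.1).2, fun v => (ω.1 v.1).1))
  have hΦ : Function.Injective Φ := by
    rintro ⟨ω, hω⟩ ⟨ω', hω'⟩ h
    simp only [Φ, Prod.mk.injEq, Subtype.mk.injEq] at h
    obtain ⟨h1, h2, h3⟩ := h
    apply Subtype.ext
    funext v
    have h1v := DFunLike.congr_fun h1 v
    change (if col v = true then (Sum.inl (ω v).1 : X ⊕ Y) else Sum.inr (ω v).2) =
      (if col v = true then (Sum.inl (ω' v).1 : X ⊕ Y) else Sum.inr (ω' v).2) at h1v
    cases hv : col v
    · simp only [hv, Bool.false_eq_true, if_false, Sum.inr.injEq] at h1v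
      have := congr_fun h3 ⟨v, hv⟩
      exact Prod.ext this h1v
    · simp only [hv, if_true, Sum.inl.injEq] at h1v
      have := congr_fun h2 ⟨v, hv⟩
      exact Prod.ext h1v this
  have h := Nat.card_le_card_of_injective Φ hΦ
  rw [Nat.card_prod, Nat.card_prod, Nat.card_fun, Nat.card_fun, Nat.card_eq_fintype_card (α := Y),
    Nat.card_eq_fintype_card (α := X)] at h
  exact h

theorem card_oriented {V : Type} [Finite V] (H : SimpleGraph V) (col : V → Bool)
    (hcol : ∀ u v, H.Adj u v → col u ≠ col v) :
    Nat.card {d : V × V // H.Adj d.1 d.2 ∧ col d.1 = true} = Nat.card H.edgeSet := by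
  apply Nat.card_congr
  apply Equiv.ofBijective (fun d : {d : V × V // H.Adj d.1 d.2 ∧ col d.1 = true} =>
    (⟨s(d.1.1, d.1.2), d.2.1⟩ : H.edgeSet))
  constructor
  · rintro ⟨⟨a, b⟩, hab, ha⟩ ⟨⟨c, d⟩, hcd, hc⟩ h
    have h := congrArg Subtype.val h
    change s(a, b) = s(c, d) at h
    rw [Sym2.eq_iff] at h
    rcases h with ⟨rfl, rfl⟩ | ⟨rfl, rfl⟩
    · rfl
    · exact absurd (ha.trans hc.symm) (hcol _ _ hab)
  · rintro ⟨e, he⟩
    induction e using Sym2.ind with
    | _ a b =>
      have hab : H.Adj a b := he
      cases ha : col a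
      · have hb : col b = true := by
          cases hb : col b
          · exact absurd (ha.trans hb.symm) (hcol _ _ hab)
          · rfl
        exact ⟨⟨(b, a), hab.symm, hb⟩, Subtype.ext Sym2.eq_swap⟩
      · exact ⟨⟨(a, b), hab, ha⟩, rfl⟩

theorem card_edgeSet_bip {X Y : Type} [Finite X] [Finite Y] (R : X → Y → Prop) :
    Nat.card (bip R).edgeSet = Nat.card {q : X × Y // R q.1 q.2} := by
  symm
  apply Nat.card_congr
  apply Equiv.ofBijective (fun q : {q : X × Y // R q.1 q.2} =>
    (⟨s(Sum.inl q.1.1, Sum.inr q.1.2), Or.inl ⟨q.1.1, q.1.2, rfl, rfl, q.2⟩⟩ : (bip R).edgeSet))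
  constructor
  · rintro ⟨⟨a, b⟩, hab⟩ ⟨⟨c, d⟩, hcd⟩ h
    have h := congrArg Subtype.val h
    change s((Sum.inl a : X ⊕ Y), Sum.inr b) = s(Sum.inl c, Sum.inr d) at h
    rw [Sym2.eq_iff] at h
    rcases h with ⟨h1, h2⟩ | ⟨h1, h2⟩
    · simp only [Sum.inl.injEq, Sum.inr.injEq] at h1 h2
      subst h1 h2
      rfl
    · simp at h1
  · rintro ⟨e, he⟩
    induction e using Sym2.ind with
    | _ a b =>
      have hab : (bip R).Adj a b := he
      rcases hab with ⟨x, y, rfl, rfl, h⟩ | ⟨x, y, rfl, rfl, h⟩
      · exact ⟨⟨(x, y), h⟩, rfl⟩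
      · exact ⟨⟨(x, y), h⟩, Subtype.ext Sym2.eq_swap⟩

end Vale.Agent.P050
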