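import Mathlib

/-!
# P050 (Sidorenko's conjecture): definitions

`homs H G` = number of maps `V(H) → V(G)` sending edges to edges, `tdens H G = t(H,G)`,
`edens G = p(G) = 2|E(G)|/|V(G)|^2`, `SidPair H G` = the Sidorenko inequality for the pair,
`SidTarget G` = the inequality for every bipartite `H` with at least one edge.
-/

namespace Vale.Agent.P050

open SimpleGraph

/-- `hom(H,G)`: the number of graph homomorphisms. -/
noncomputable def homs {V W : Type} (H : SimpleGraph V) (G : SimpleGraph W) : ℕ :=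
  Nat.card (H →g G)

/-- `t(H,G) = hom(H,G) / |V(G)|^|V(H)|`. -/
noncomputable def tdens {V W : Type} (H : SimpleGraph V) (G : SimpleGraph W) : ℝ :=
  (homs H G : ℝ) / (Nat.card W : ℝ) ^ Nat.card V

/-- `p(G) = 2 |E(G)| / |V(G)|^2`. -/
noncomputable def edens {W : Type} (G : SimpleGraph W) : ℝ :=
  2 * (Nat.card G.edgeSet : ℝ) / (Nat.card W : ℝ) ^ 2

/-- Sidorenko's inequality `t(H,G) ≥ p(G)^|E(H)|` for one pair. -/
def SidPair {V W : Type} (H : SimpleGraph V) (G : SimpleGraph W) : Prop :=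
  edens G ^ Nat.card H.edgeSet ≤ tdens H G

/-- `G` is a good target: Sidorenko's inequality holds for every finite bipartite graph `H`
with at least one edge. -/
def SidTarget {W : Type} (G : SimpleGraph W) : Prop :=
  ∀ (V : Type) [Finite V] (H : SimpleGraph V), H.IsBipartite → H.edgeSet.Nonempty → SidPair H G

/-- The bipartite graph on `X ⊕ Y` with `x ~ y` iff `R x y`. -/
def bip {X Y : Type} (R : X → Y → Prop) : SimpleGraph (X ⊕ Y) where
  Adj a b := (∃ x y, a = Sum.inl x ∧ b = Sum.inr y ∧ R x y) ∨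
    (∃ x y, a = Sum.inr y ∧ b = Sum.inl x ∧ R x y)
  symm := ⟨by
    rintro a b (⟨x, y, rfl, rfl, h⟩ | ⟨x, y, rfl, rfl, h⟩)
    · exact Or.inr ⟨x, y, rfl, rfl, h⟩
    · exact Or.inl ⟨x, y, rfl, rfl, h⟩⟩
  loopless := ⟨by
    rintro a (⟨x, y, h1, h2, -⟩ | ⟨x, y, h1, h2, -⟩) <;> simp [h1] at h2⟩

/-- The tensor (categorical) product of two graphs. -/
def tensor {W₁ W₂ : Type} (G₁ : SimpleGraph W₁) (G₂ : SimpleGraph W₂) :
    SimpleGraph (W₁ × W₂) where
  Adj a b := G₁.Adj a.1 b.1 ∧ G₂.Adj a.2 b.2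
  symm := ⟨fun _ _ h => ⟨h.1.symm, h.2.symm⟩⟩
  loopless := ⟨fun a h => G₁.loopless.irrefl a.1 h.1⟩

end Vale.Agent.P050
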