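import Vale.Agent.Lib.P050.Defs

/-!
# P050 module K1: Harris inequality for a product of monotone functions   (FROZEN statement)

ROUTE. `Finset.induction_on S`.  Step: by Mathlib's `fkg` with `μ = 1`, `f = ∏ i ∈ S, F i`
(monotone and nonnegative: product of monotone nonnegative functions), `g = F j`:
`(∑ ∏_S F) * (∑ F j) ≤ card α * ∑ (∏_S F * F j)`.
-/

namespace Vale.Agent.P050

theorem harris_prod {α ι : Type} [DistribLattice α] [Fintype α] (S : Finset ι)
    (F : ι → α → ℝ) (hF0 : ∀ i a, 0 ≤ F i a) (hF : ∀ i, Monotone (F i)) :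
    (Fintype.card α : ℝ) * ∏ i ∈ S, (∑ a, F i a) ≤
      (Fintype.card α : ℝ) ^ S.card * ∑ a, ∏ i ∈ S, F i a := by
  classical
  induction S using Finset.induction_on with
  | empty => simp
  | insert j S hj ih =>
    rw [Finset.prod_insert hj, Finset.card_insert_of_notMem hj]
    have hP0 : (0 : α → ℝ) ≤ fun a => ∏ i ∈ S, F i a :=
      fun a => Finset.prod_nonneg fun i _ => hF0 i a
    have hPm : Monotone fun a => ∏ i ∈ S, F i a := by
      intro a b hab
      exact Finset.prod_le_prod (fun i _ => hF0 i a) (fun i _ => hF i hab)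
    have hfkg := fkg (μ := fun _ : α => (1 : ℝ)) (f := fun a => ∏ i ∈ S, F i a) (g := F j)
      (fun _ => zero_le_one) hP0 (fun a => hF0 j a) hPm (hF j) (fun _ _ => le_refl _)
    simp only [one_mul, Finset.sum_const, Finset.card_univ, nsmul_eq_mul, mul_one] at hfkg
    have hj0 : 0 ≤ ∑ a, F j a := Finset.sum_nonneg fun a _ => hF0 j a
    have hc0 : (0 : ℝ) ≤ (Fintype.card α : ℝ) ^ S.card := by positivity
    have e : ∀ a, ∏ i ∈ insert j S, F i a = (∏ i ∈ S, F i a) * F j a := by
      intro a; rw [Finset.prod_insert hj, mul_comm]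
    simp only [e]
    calc (Fintype.card α : ℝ) * ((∑ a, F j a) * ∏ i ∈ S, ∑ a, F i a)
        = (∑ a, F j a) * ((Fintype.card α : ℝ) * ∏ i ∈ S, ∑ a, F i a) := by ring
      _ ≤ (∑ a, F j a) * ((Fintype.card α : ℝ) ^ S.card * ∑ a, ∏ i ∈ S, F i a) :=
          mul_le_mul_of_nonneg_left ih hj0
      _ = (Fintype.card α : ℝ) ^ S.card * ((∑ a, ∏ i ∈ S, F i a) * ∑ a, F j a) := by ring
      _ ≤ (Fintype.card α : ℝ) ^ S.card *
            ((Fintype.card α : ℝ) * ∑ a, (∏ i ∈ S, F i a) * F j a) :=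
          mul_le_mul_of_nonneg_left hfkg hc0
      _ = (Fintype.card α : ℝ) ^ (S.card + 1) * ∑ a, (∏ i ∈ S, F i a) * F j a := by ring

end Vale.Agent.P050
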