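import Vale.Agent.Lib.P050.Defs

/-!
# P050 module K3: the numerical inequality for bipartite targets   (FROZEN statements)

ROUTE for `numeric_core` (normalise `x + y = 1` or keep homogeneous).  WLOG `b ≤ a`, `k = a - b`:
`x^a y^b + x^b y^a = (xy)^b (x^k + y^k)`, `x^k + y^k ≥ 2 ((x+y)/2)^k` (power mean,
`add_pow_le_pow_mul_pow_of_add_eq_one` / `inner_le...` / `pow_arith_mean_le_arith_mean_pow`),
`4xy ≤ (x+y)^2`, so with `q = 2xy/(x+y)^2 ≤ 1/2`: `q^m ≤ q^(a+b-1)` and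
`q^(a+b-1) (x+y)^(a+b) ≤ (xy)^b 2^(1-k) (x+y)^k`  because `(xy)^(a-1) ≤ ((x+y)^2/4)^(a-1)`.
`numeric_bip` follows: `(2r/(x+y)^2)^m = (r/(xy))^m q^m`.
-/

namespace Vale.Agent.P050

private lemma alg_aux (t S : ℝ) (b k : ℕ) :
    t ^ b * (2 / 2 ^ (2 * b + k)) * S ^ (2 * b + k) = (t * S ^ 2 / 4) ^ b * (2 * (S / 2) ^ k) := by
  have h4b : (4:ℝ) ^ b = 2 ^ (2 * b) := by rw [pow_mul]; norm_num
  rw [div_pow, div_pow, mul_pow, h4b, ← pow_mul, pow_add, pow_add]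
  field_simp

private lemma core_aux (x y : ℝ) (b k m : ℕ) (hx : 0 < x) (hy : 0 < y) (h1 : 1 ≤ b + k)
    (hm : 2 * b + k ≤ m + 1) :
    (2 * (x * y) / (x + y) ^ 2) ^ m * (x + y) ^ (2 * b + k) ≤ (x * y) ^ b * (x ^ k + y ^ k) := by
  set S := x + y with hSdef
  have hS : 0 < S := by positivity
  set t := 4 * (x * y) / S ^ 2 with htdef
  have ht0 : 0 < t := by positivity
  have ht1 : t ≤ 1 := by
    rw [htdef, div_le_one (by positivity)]
    nlinarith [sq_nonneg (x - y)]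
  have e1 : 2 * (x * y) / S ^ 2 = t / 2 := by rw [htdef]; ring
  have e2 : x * y = t * S ^ 2 / 4 := by rw [htdef]; field_simp
  have pm : 2 * (S / 2) ^ k ≤ x ^ k + y ^ k := by
    have h := (convexOn_pow (𝕜 := ℝ) k).2 (show x ∈ Set.Ici (0:ℝ) from hx.le)
      (show y ∈ Set.Ici (0:ℝ) from hy.le) (show (0:ℝ) ≤ 1 / 2 by norm_num)
      (show (0:ℝ) ≤ 1 / 2 by norm_num) (by norm_num)
    simp only [smul_eq_mul] at h
    have e : (1 / 2 * x + 1 / 2 * y) = S / 2 := by rw [hSdef]; ring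
    rw [e] at h
    linarith
  have hb : b ≤ m := by omega
  have h3 : t ^ m ≤ t ^ b := pow_le_pow_of_le_one ht0.le ht1 hb
  have h4 : (2:ℝ) ^ (2 * b + k) ≤ 2 ^ (m + 1) := pow_le_pow_right₀ (by norm_num) hm
  have h5 : t ^ m / 2 ^ m ≤ t ^ b * (2 / 2 ^ (2 * b + k)) := by
    have p1 : (0:ℝ) < 2 ^ m := by positivity
    have p2 : (0:ℝ) < 2 ^ (2 * b + k) := by positivity
    have p3 : (0:ℝ) < t ^ b := by positivity
    rw [div_le_iff₀ p1]
    have : t ^ b * (2 / 2 ^ (2 * b + k)) * 2 ^ m = t ^ b * (2 ^ (m + 1) / 2 ^ (2 * b + k)) := by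
      rw [pow_succ]; ring
    rw [this]
    have h6 : (1:ℝ) ≤ 2 ^ (m + 1) / 2 ^ (2 * b + k) := by rw [le_div_iff₀ p2]; linarith
    calc t ^ m ≤ t ^ b := h3
      _ = t ^ b * 1 := by ring
      _ ≤ t ^ b * (2 ^ (m + 1) / 2 ^ (2 * b + k)) := mul_le_mul_of_nonneg_left h6 p3.le
  rw [e1, div_pow]
  calc t ^ m / 2 ^ m * S ^ (2 * b + k) ≤ t ^ b * (2 / 2 ^ (2 * b + k)) * S ^ (2 * b + k) :=
        mul_le_mul_of_nonneg_right h5 (by positivity)
    _ = (t * S ^ 2 / 4) ^ b * (2 * (S / 2) ^ k) := alg_aux t S b k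
    _ ≤ (x * y) ^ b * (x ^ k + y ^ k) := by
        rw [← e2]
        exact mul_le_mul_of_nonneg_left pm (by positivity)

theorem numeric_core (x y : ℝ) (a b m : ℕ) (hx : 0 < x) (hy : 0 < y) (hab : 1 ≤ a + b)
    (hm : a + b ≤ m + 1) :
    (2 * (x * y) / (x + y) ^ 2) ^ m * (x + y) ^ (a + b) ≤ x ^ a * y ^ b + x ^ b * y ^ a := by
  rcases le_total b a with h | h
  · obtain ⟨k, rfl⟩ := Nat.exists_eq_add_of_le h
    have := core_aux x y b k m hx hy (by omega) (by omega)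
    have e : b + k + b = 2 * b + k := by ring
    rw [e]
    calc _ ≤ (x * y) ^ b * (x ^ k + y ^ k) := this
      _ = x ^ (b + k) * y ^ b + x ^ b * y ^ (b + k) := by ring
  · obtain ⟨k, rfl⟩ := Nat.exists_eq_add_of_le h
    have := core_aux x y a k m hx hy (by omega) (by omega)
    have e : a + (a + k) = 2 * a + k := by ring
    rw [e]
    calc _ ≤ (x * y) ^ a * (x ^ k + y ^ k) := this
      _ = x ^ a * y ^ (a + k) + x ^ (a + k) * y ^ a := by ring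

theorem numeric_bip (x y r h : ℝ) (a b m : ℕ) (hx : 0 < x) (hy : 0 < y) (hr : 0 ≤ r)
    (hab : 1 ≤ a + b) (hm : a + b ≤ m + 1)
    (hh : (x ^ a * y ^ b + x ^ b * y ^ a) * r ^ m ≤ h * (x * y) ^ m) :
    (2 * r / (x + y) ^ 2) ^ m ≤ h / (x + y) ^ (a + b) := by
  have hc := numeric_core x y a b m hx hy hab hm
  have hS : 0 < x + y := by positivity
  have hxy : 0 < (x * y) ^ m := by positivity
  rw [le_div_iff₀ (by positivity)]
  have h1 : (2 * (x * y) / (x + y) ^ 2) ^ m * (x + y) ^ (a + b) * r ^ m ≤ h * (x * y) ^ m :=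
    le_trans (mul_le_mul_of_nonneg_right hc (by positivity)) hh
  have e : (2 * (x * y) / (x + y) ^ 2) ^ m * (x + y) ^ (a + b) * r ^ m
      = ((2 * r / (x + y) ^ 2) ^ m * (x + y) ^ (a + b)) * (x * y) ^ m := by
    rw [div_pow, div_pow, mul_pow, mul_pow 2 r]
    ring
  rw [e] at h1
  exact le_of_mul_le_mul_right h1 hxy

end Vale.Agent.P050
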