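import Vale.Agent.Lib.P050.Defs

/-!
# P050 module T: tensor products of targets   (statement frozen by helper14, proof by helper12)

ROUTE. `homs H (tensor G₁ G₂) = homs H G₁ * homs H G₂` (the equivalence `f ↦ (fst ∘ f, snd ∘ f)`);
`Nat.card (W₁ × W₂) = Nat.card W₁ * Nat.card W₂`;
`2 * Nat.card (tensor G₁ G₂).edgeSet = (2 * Nat.card G₁.edgeSet) * (2 * Nat.card G₂.edgeSet)`
(count darts / ordered adjacent pairs: `SimpleGraph.dart_card_eq_twice_card_edges`, and the ordered
adjacent pairs of the tensor product are the pairs of ordered adjacent pairs).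
So `edens` and `tdens H` are multiplicative; `mul_pow`, `mul_le_mul`, `0 ≤ edens`.
-/

namespace Vale.Agent.P050

open SimpleGraph

private theorem homs_tensor {V W₁ W₂ : Type} (H : SimpleGraph V) (G₁ : SimpleGraph W₁)
    (G₂ : SimpleGraph W₂) : homs H (tensor G₁ G₂) = homs H G₁ * homs H G₂ := by
  unfold homs
  rw [← Nat.card_prod]
  refine Nat.card_congr
    { toFun := fun f => (⟨fun v => (f v).1, fun {a b} h => (f.map_rel h).1⟩,
        ⟨fun v => (f v).2, fun {a b} h => (f.map_rel h).2⟩)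
      invFun := fun p => ⟨fun v => (p.1 v, p.2 v), fun {a b} h => ⟨p.1.map_rel h, p.2.map_rel h⟩⟩
      left_inv := fun f => by ext v <;> rfl
      right_inv := fun p => by ext v <;> rfl }

private theorem card_adjPairs {W : Type} [Finite W] (G : SimpleGraph W) :
    Nat.card {p : W × W // G.Adj p.1 p.2} = 2 * Nat.card G.edgeSet := by
  classical
  have := Fintype.ofFinite W
  have h1 : Nat.card {p : W × W // G.Adj p.1 p.2} = Nat.card G.Dart :=
    Nat.card_congr
      { toFun := fun p => ⟨p.1, p.2⟩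
        invFun := fun d => ⟨d.toProd, d.adj⟩
        left_inv := fun p => rfl
        right_inv := fun d => rfl }
  rw [h1, Nat.card_eq_fintype_card, G.dart_card_eq_twice_card_edges, Nat.card_eq_fintype_card,
    ← edgeFinset_card]

private theorem card_adjPairs_tensor {W₁ W₂ : Type} (G₁ : SimpleGraph W₁) (G₂ : SimpleGraph W₂) :
    Nat.card {p : (W₁ × W₂) × (W₁ × W₂) // (tensor G₁ G₂).Adj p.1 p.2}
      = Nat.card {p : W₁ × W₁ // G₁.Adj p.1 p.2} * Nat.card {p : W₂ × W₂ // G₂.Adj p.1 p.2} := by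
  rw [← Nat.card_prod]
  exact Nat.card_congr
    { toFun := fun p => (⟨(p.1.1.1, p.1.2.1), p.2.1⟩, ⟨(p.1.1.2, p.1.2.2), p.2.2⟩)
      invFun := fun q => ⟨((q.1.1.1, q.2.1.1), (q.1.1.2, q.2.1.2)), ⟨q.1.2, q.2.2⟩⟩
      left_inv := fun p => rfl
      right_inv := fun q => rfl }

theorem sidPair_tensor {V W₁ W₂ : Type} [Finite V] [Finite W₁] [Finite W₂]
    (H : SimpleGraph V) (G₁ : SimpleGraph W₁) (G₂ : SimpleGraph W₂)
    (h₁ : SidPair H G₁) (h₂ : SidPair H G₂) : SidPair H (tensor G₁ G₂) := by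
  have hE : 2 * Nat.card (tensor G₁ G₂).edgeSet
      = (2 * Nat.card G₁.edgeSet) * (2 * Nat.card G₂.edgeSet) := by
    rw [← card_adjPairs, ← card_adjPairs, ← card_adjPairs, card_adjPairs_tensor]
  have hE' : 2 * (Nat.card (tensor G₁ G₂).edgeSet : ℝ)
      = (2 * (Nat.card G₁.edgeSet : ℝ)) * (2 * (Nat.card G₂.edgeSet : ℝ)) := by
    exact_mod_cast hE
  have hed : edens (tensor G₁ G₂) = edens G₁ * edens G₂ := by
    unfold edens
    rw [hE', Nat.card_prod]
    push_cast
    rw [mul_pow, mul_div_mul_comm]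
  have htd : tdens H (tensor G₁ G₂) = tdens H G₁ * tdens H G₂ := by
    unfold tdens
    rw [homs_tensor, Nat.card_prod]
    push_cast
    rw [mul_pow, mul_div_mul_comm]
  have h0 : ∀ {W : Type} (G : SimpleGraph W), 0 ≤ edens G := by
    intro W G
    unfold edens
    positivity
  unfold SidPair at *
  rw [hed, htd, mul_pow]
  exact mul_le_mul h₁ h₂ (pow_nonneg (h0 G₂) _) ((pow_nonneg (h0 G₁) _).trans h₁)

end Vale.Agent.P050
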