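import Vale.Agent.Lib.P050.Defs

/-!
# P050 module U: disjoint unions of targets (connected `H`)   (FROZEN statements)

ROUTE for `numeric_sum`: put `l_i = n_i/(n₁+n₂)`, `p_i = 2 e_i/n_i^2`.  Then
`(h₁+h₂)/(n₁+n₂)^v ≥ l₁^v p₁^m + l₂^v p₂^m ≥ l₁^(m+1) p₁^m + l₂^(m+1) p₂^m
 = l₁ (l₁ p₁)^m + l₂ (l₂ p₂)^m ≥ (l₁^2 p₁ + l₂^2 p₂)^m` (convexity of `x^m`, weights `l₁+l₂=1`,
e.g. `inner_le_nnorm_mul_nnorm`-free: `Real.pow_arith_mean_le_arith_mean_pow` or
`(convexOn_pow m).2`), and `l₁^2 p₁ + l₂^2 p₂ = 2(e₁+e₂)/(n₁+n₂)^2`.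

ROUTE for `sidPair_sum`: a homomorphism from a connected graph into `G₁ ⊕g G₂` has its image in
one summand (adjacent vertices have images in the same summand; induct along walks /
`Reachable`), so `homs H (G₁ ⊕g G₂) = homs H G₁ + homs H G₂`; edges and vertices add;
`Nat.card V ≤ Nat.card H.edgeSet + 1` is `SimpleGraph.Connected.card_vert_le_card_edgeSet_add_one`.
-/

namespace Vale.Agent.P050

open SimpleGraph

private theorem part_bound (n N e h : ℝ) (v m : ℕ) (hn : 0 < n) (hN : 0 < N) (hnN : n ≤ N)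
    (he : 0 ≤ e) (hv : v ≤ m + 1) (H : (2 * e / n ^ 2) ^ m ≤ h / n ^ v) :
    (n / N) * ((n / N) * (2 * e / n ^ 2)) ^ m ≤ h / N ^ v := by
  have hl0 : 0 ≤ n / N := by positivity
  have hl1 : n / N ≤ 1 := by rw [div_le_one hN]; exact hnN
  have hp0 : 0 ≤ (2 * e / n ^ 2) ^ m := by positivity
  have h1 : (n / N) ^ (m + 1) ≤ (n / N) ^ v := pow_le_pow_of_le_one hl0 hl1 hv
  have h2 : h / N ^ v = (n / N) ^ v * (h / n ^ v) := by
    rw [div_pow]
    field_simp
  rw [h2, mul_pow, ← mul_assoc, ← pow_succ']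
  calc (n / N) ^ (m + 1) * (2 * e / n ^ 2) ^ m ≤ (n / N) ^ v * (2 * e / n ^ 2) ^ m :=
        mul_le_mul_of_nonneg_right h1 hp0
    _ ≤ (n / N) ^ v * (h / n ^ v) := mul_le_mul_of_nonneg_left H (by positivity)

theorem numeric_sum (n₁ n₂ e₁ e₂ h₁ h₂ : ℝ) (v m : ℕ) (hn₁ : 0 < n₁) (hn₂ : 0 < n₂)
    (he₁ : 0 ≤ e₁) (he₂ : 0 ≤ e₂) (hv : v ≤ m + 1)
    (H₁ : (2 * e₁ / n₁ ^ 2) ^ m ≤ h₁ / n₁ ^ v) (H₂ : (2 * e₂ / n₂ ^ 2) ^ m ≤ h₂ / n₂ ^ v) :
    (2 * (e₁ + e₂) / (n₁ + n₂) ^ 2) ^ m ≤ (h₁ + h₂) / (n₁ + n₂) ^ v := by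
  have hN : 0 < n₁ + n₂ := by positivity
  have B₁ := part_bound n₁ (n₁ + n₂) e₁ h₁ v m hn₁ hN (by linarith) he₁ hv H₁
  have B₂ := part_bound n₂ (n₁ + n₂) e₂ h₂ v m hn₂ hN (by linarith) he₂ hv H₂
  have hx : (0 : ℝ) ≤ (n₁ / (n₁ + n₂)) * (2 * e₁ / n₁ ^ 2) := by positivity
  have hy : (0 : ℝ) ≤ (n₂ / (n₁ + n₂)) * (2 * e₂ / n₂ ^ 2) := by positivity
  have hsum : n₁ / (n₁ + n₂) + n₂ / (n₁ + n₂) = 1 := by field_simp
  have ha : (0 : ℝ) ≤ n₁ / (n₁ + n₂) := by positivity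
  have hb : (0 : ℝ) ≤ n₂ / (n₁ + n₂) := by positivity
  have C := (convexOn_pow (𝕜 := ℝ) m).2 (Set.mem_Ici.2 hx) (Set.mem_Ici.2 hy) ha hb hsum
  simp only [smul_eq_mul] at C
  have hE : 2 * (e₁ + e₂) / (n₁ + n₂) ^ 2 =
      n₁ / (n₁ + n₂) * ((n₁ / (n₁ + n₂)) * (2 * e₁ / n₁ ^ 2)) +
        n₂ / (n₁ + n₂) * ((n₂ / (n₁ + n₂)) * (2 * e₂ / n₂ ^ 2)) := by
    field_simp
  rw [hE, add_div]
  exact C.trans (add_le_add B₁ B₂)

private theorem homs_sum {V W₁ W₂ : Type} [Finite V] [Finite W₁] [Finite W₂]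
    (H : SimpleGraph V) (hH : H.Connected) (G₁ : SimpleGraph W₁) (G₂ : SimpleGraph W₂) :
    homs H (G₁ ⊕g G₂) = homs H G₁ + homs H G₂ := by
  unfold homs
  have : Finite (H →g G₁) := DFunLike.finite _
  have : Finite (H →g G₂) := DFunLike.finite _
  rw [← Nat.card_sum]
  apply Nat.card_congr
  symm
  apply Equiv.ofBijective (fun f : (H →g G₁) ⊕ (H →g G₂) =>
    Sum.elim (fun f => (Embedding.sumInl (G := G₁) (H := G₂)).toHom.comp f)
      (fun f => (Embedding.sumInr (G := G₁) (H := G₂)).toHom.comp f) f)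
  obtain ⟨v₀⟩ := hH.nonempty
  constructor
  · rintro (f | f) (g | g) hfg
    · congr 1
      ext v
      have := DFunLike.congr_fun hfg v
      simpa using this
    · have := DFunLike.congr_fun hfg v₀
      simp at this
    · have := DFunLike.congr_fun hfg v₀
      simp at this
    · congr 1
      ext v
      have := DFunLike.congr_fun hfg v
      simpa using this
  · intro f
    rcases hf : f v₀ with w | w
    · have hall : ∀ v, ∃ w', f v = Sum.inl w' := by
        intro v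
        rcases hv : f v with w' | w'
        · exact ⟨w', rfl⟩
        · exfalso
          have hr := (hH.preconnected v₀ v).map f
          rw [hf, hv] at hr
          exact not_reachable_sum_inl_inr _ _ hr
      choose g hg using hall
      refine ⟨Sum.inl ⟨g, ?_⟩, ?_⟩
      · intro a b hab
        have := f.map_rel hab
        rw [hg a, hg b] at this
        simpa using this
      · ext v
        simp [hg v]
    · have hall : ∀ v, ∃ w', f v = Sum.inr w' := by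
        intro v
        rcases hv : f v with w' | w'
        · exfalso
          have hr := (hH.preconnected v v₀).map f
          rw [hf, hv] at hr
          exact not_reachable_sum_inl_inr _ _ hr
        · exact ⟨w', rfl⟩
      choose g hg using hall
      refine ⟨Sum.inr ⟨g, ?_⟩, ?_⟩
      · intro a b hab
        have := f.map_rel hab
        rw [hg a, hg b] at this
        simpa using this
      · ext v
        simp [hg v]

theorem sidPair_sum {V W₁ W₂ : Type} [Finite V] [Finite W₁] [Finite W₂] [Nonempty W₁]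
    [Nonempty W₂] (H : SimpleGraph V) (hH : H.Connected) (G₁ : SimpleGraph W₁)
    (G₂ : SimpleGraph W₂) (h₁ : SidPair H G₁) (h₂ : SidPair H G₂) :
    SidPair H (G₁ ⊕g G₂) := by
  unfold SidPair edens tdens at *
  have hE : Nat.card (G₁ ⊕g G₂).edgeSet = Nat.card G₁.edgeSet + Nat.card G₂.edgeSet := by
    rw [Nat.card_congr edgeSetSumEquiv, Nat.card_sum]
  rw [hE, homs_sum H hH, Nat.card_sum]
  push_cast
  exact numeric_sum _ _ _ _ _ _ _ _ (by exact_mod_cast Nat.card_pos) (by exact_mod_cast Nat.card_pos)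
    (by positivity) (by positivity) hH.card_vert_le_card_edgeSet_add_one h₁ h₂

end Vale.Agent.P050
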