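import Vale.Agent.Lib.P050.Components
import Vale.Agent.Lib.P050.Union
import Vale.Agent.Lib.P050.Tensor
import Vale.Agent.Lib.P050.Harris
import Vale.Agent.Lib.P050.Count
import Vale.Agent.Lib.P050.Numeric

/-!
# P050: assembly
-/

namespace Vale.Agent.P050

open SimpleGraph

theorem edens_nonneg {W : Type} (G : SimpleGraph W) : 0 ≤ edens G := by
  unfold edens; positivity

theorem sidPair_of_edgeless {V W : Type} [Finite V] [Finite W] [Nonempty W] (H : SimpleGraph V)
    (G : SimpleGraph W) (h : ¬ H.edgeSet.Nonempty) : SidPair H G := by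
  have hE : H.edgeSet = ∅ := Set.not_nonempty_iff_eq_empty.mp h
  have hbot : H = ⊥ := by simpa using hE
  subst hbot
  have hc : Nat.card ((⊥ : SimpleGraph V) →g G) = Nat.card W ^ Nat.card V := by
    rw [← Nat.card_fun]
    exact Nat.card_congr ⟨fun f => f, fun f => ⟨f, by intro a b h; simp at h⟩,
      fun _ => rfl, fun _ => rfl⟩
  have hW : (0 : ℝ) < (Nat.card W : ℝ) := by exact_mod_cast Nat.card_pos
  unfold SidPair tdens homs
  rw [hc, hE]
  have h0 : Nat.card (∅ : Set (Sym2 V)) = 0 := by simp
  rw [h0, pow_zero, Nat.cast_pow, div_self (by positivity)]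

theorem card_pairs {X Y : Type} [Fintype X] [Fintype Y] (R : X → Y → Prop) :
    Nat.card {q : (X × Y) × (X × Y) // R q.1.1 q.2.2} =
      Nat.card {p : X × Y // R p.1 p.2} * (Fintype.card X * Fintype.card Y) := by
  rw [← Fintype.card_prod, ← Nat.card_eq_fintype_card, ← Nat.card_prod]
  refine Nat.card_congr ⟨fun q => (⟨(q.1.1.1, q.1.2.2), q.2⟩, (q.1.2.1, q.1.1.2)),
    fun p => ⟨((p.1.1.1, p.2.2), (p.2.1, p.1.1.2)), p.1.2⟩, ?_, ?_⟩
  · rintro ⟨⟨⟨a, b⟩, ⟨c, d⟩⟩, h⟩; rfl
  · rintro ⟨⟨⟨a, b⟩, h⟩, ⟨c, d⟩⟩; rfl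


/-- One-sided count: homomorphisms that send colour `true` to `X` and colour `false` to `Y`. -/
theorem oneSided {X Y V : Type} [DistribLattice X] [DistribLattice Y] [Fintype X] [Fintype Y]
    [Nonempty X] [Nonempty Y] [Fintype V] (R : X → Y → Prop)
    (hR : ∀ x x' y y', x ≤ x' → y ≤ y' → R x y → R x' y')
    (H : SimpleGraph V) (col : V → Bool) (hcol : ∀ u v, H.Adj u v → col u ≠ col v) :
    ((Fintype.card X : ℝ) ^ Nat.card {v // col v = true} *
        (Fintype.card Y : ℝ) ^ Nat.card {v // col v = false}) *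
        (Nat.card {p : X × Y // R p.1 p.2} : ℝ) ^ Nat.card H.edgeSet ≤
      (Nat.card {f : H →g bip R // ∀ v, (f v).isLeft = col v} : ℝ) *
        ((Fintype.card X : ℝ) * (Fintype.card Y : ℝ)) ^ Nat.card H.edgeSet := by
  classical
  set a := Nat.card {v // col v = true} with ha
  set b := Nat.card {v // col v = false} with hb
  set m := Nat.card H.edgeSet with hm
  set r := Nat.card {p : X × Y // R p.1 p.2} with hr
  set Φ := Nat.card {f : H →g bip R // ∀ v, (f v).isLeft = col v} with hΦ
  have hx : (0 : ℝ) < Fintype.card X := by exact_mod_cast Fintype.card_pos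
  have hy : (0 : ℝ) < Fintype.card Y := by exact_mod_cast Fintype.card_pos
  set x : ℝ := (Fintype.card X : ℝ) with hxdef
  set y : ℝ := (Fintype.card Y : ℝ) with hydef
  have hab : a + b = Fintype.card V := by
    have h1 : Fintype.card V = Fintype.card {v // col v = true} +
        Fintype.card {v // ¬ col v = true} := by
      have h3 := Fintype.card_subtype_compl (fun v => col v = true)
      have h4 := Fintype.card_subtype_le (fun v => col v = true)
      omega
    have h2 : Fintype.card {v // ¬ col v = true} = Fintype.card {v // col v = false} :=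
      Fintype.card_congr (Equiv.subtypeEquivRight (by simp))
    rw [ha, hb, Nat.card_eq_fintype_card, Nat.card_eq_fintype_card, h1, h2]
  -- index set of oriented edges
  let ι := {d : V × V // H.Adj d.1 d.2 ∧ col d.1 = true}
  have hι : Fintype.card ι = m := by
    rw [← Nat.card_eq_fintype_card]; exact card_oriented H col hcol
  let F : ι → (V → X × Y) → ℝ := fun d ω => if R (ω d.1.1).1 (ω d.1.2).2 then 1 else 0
  have hF0 : ∀ i ω, 0 ≤ F i ω := by
    intro i ω; simp only [F]; split_ifs <;> norm_num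
  have hFm : ∀ i, Monotone (F i) := by
    intro i ω ω' hle
    simp only [F]
    by_cases h1 : R (ω i.1.1).1 (ω i.1.2).2
    · have h2 : R (ω' i.1.1).1 (ω' i.1.2).2 :=
        hR _ _ _ _ (hle i.1.1).1 (hle i.1.2).2 h1
      simp [h1, h2]
    · simp only [h1, if_false]; split_ifs <;> norm_num
  have hH := harris_prod (Finset.univ : Finset ι) F hF0 hFm
  have hM : (Fintype.card (V → X × Y) : ℝ) = (x * y) ^ (a + b) := by
    rw [Fintype.card_fun, Fintype.card_prod, hab]; push_cast; rfl
  -- each marginal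
  have hmarg : ∀ i : ι, (∑ ω, F i ω) * (x * y) = (x * y) ^ (a + b) * r := by
    intro i
    have huv : i.1.1 ≠ i.1.2 := H.ne_of_adj i.2.1
    have h1 := marginal (L := X × Y) (V := V) i.1.1 i.1.2 huv (fun l l' => R l.1 l'.2)
    rw [card_pairs R, Fintype.card_prod, ← hab] at h1
    have h2 : (∑ ω, F i ω) = (Nat.card {ω : V → X × Y // R (ω i.1.1).1 (ω i.1.2).2} : ℝ) := by
      simp only [F]
      rw [Finset.sum_boole, Nat.card_eq_fintype_card, Fintype.card_subtype]
    rw [h2]
    have h3 : ((Nat.card {ω : V → X × Y // R (ω i.1.1).1 (ω i.1.2).2} : ℝ)) * (x * y) ^ 2 =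
        (x * y) ^ (a + b) * (r * (x * y)) := by
      rw [hxdef, hydef]
      exact_mod_cast h1
    have hxy : (x * y) ≠ 0 := by positivity
    have : ((Nat.card {ω : V → X × Y // R (ω i.1.1).1 (ω i.1.2).2} : ℝ) * (x * y)) * (x * y) =
        ((x * y) ^ (a + b) * r) * (x * y) := by
      linear_combination h3
    exact mul_right_cancel₀ hxy this
  -- the product
  have hprod : (∑ ω, ∏ i ∈ (Finset.univ : Finset ι), F i ω) =
      (Nat.card {ω : V → X × Y // ∀ u v, H.Adj u v → col u = true → R (ω u).1 (ω v).2} : ℝ) := by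
    rw [Nat.card_eq_fintype_card, Fintype.card_subtype, ← Finset.sum_boole]
    refine Finset.sum_congr rfl (fun ω _ => ?_)
    simp only [F]
    rw [Finset.prod_ite_zero]
    simp only [Finset.prod_const_one]
    congr 1
    apply propext
    constructor
    · intro h u v huv hc
      exact h ⟨(u, v), huv, hc⟩ (Finset.mem_univ _)
    · intro h i _
      exact h _ _ i.2.1 i.2.2
  have hfib := fibre_bound R H col hcol
  have hfib' : (Nat.card {ω : V → X × Y // ∀ u v, H.Adj u v → col u = true → R (ω u).1 (ω v).2} : ℝ)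
      ≤ Φ * (y ^ a * x ^ b) := by
    rw [hxdef, hydef]
    exact_mod_cast hfib
  rw [hM, hprod, Finset.card_univ, hι] at hH
  -- combine
  have hxy : 0 < x * y := by positivity
  have hP : (∏ i ∈ (Finset.univ : Finset ι), ∑ ω, F i ω) * (x * y) ^ m =
      ((x * y) ^ (a + b) * r) ^ m := by
    rw [← hι, ← Finset.card_univ, ← Finset.prod_const, ← Finset.prod_mul_distrib,
      ← Finset.prod_const]
    exact Finset.prod_congr rfl (fun i _ => hmarg i)
  have key : (x * y) ^ (a + b) * ((x * y) ^ (a + b) * r) ^ m ≤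
      ((x * y) ^ (a + b)) ^ m * (Φ * (y ^ a * x ^ b)) * (x * y) ^ m := by
    calc (x * y) ^ (a + b) * ((x * y) ^ (a + b) * r) ^ m
        = ((x * y) ^ (a + b) * ∏ i ∈ (Finset.univ : Finset ι), ∑ ω, F i ω) * (x * y) ^ m := by
          rw [← hP]; ring
      _ ≤ (((x * y) ^ (a + b)) ^ m * _) * (x * y) ^ m :=
          mul_le_mul_of_nonneg_right hH (by positivity)
      _ ≤ (((x * y) ^ (a + b)) ^ m * (Φ * (y ^ a * x ^ b))) * (x * y) ^ m := by
          gcongr
  have hpos : 0 < ((x * y) ^ (a + b)) ^ m * (y ^ a * x ^ b) := by positivity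
  have : (((x * y) ^ (a + b)) ^ m * (y ^ a * x ^ b)) * ((x ^ a * y ^ b) * (r : ℝ) ^ m) ≤
      (((x * y) ^ (a + b)) ^ m * (y ^ a * x ^ b)) * (Φ * (x * y) ^ m) := by
    calc (((x * y) ^ (a + b)) ^ m * (y ^ a * x ^ b)) * ((x ^ a * y ^ b) * (r : ℝ) ^ m)
        = (x * y) ^ (a + b) * ((x * y) ^ (a + b) * r) ^ m := by
          rw [mul_pow ((x * y) ^ (a + b)) (r : ℝ) m, mul_pow x y (a + b), pow_add, pow_add]; ring
      _ ≤ _ := key
      _ = _ := by ring
  exact le_of_mul_le_mul_left this hpos

theorem card_add_card_le {T : Type} [Finite T] (P Q : T → Prop) (hPQ : ∀ t, P t → Q t → False) :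
    Nat.card {t // P t} + Nat.card {t // Q t} ≤ Nat.card T := by
  rw [← Nat.card_sum]
  refine Nat.card_le_card_of_injective
    (fun s : {t // P t} ⊕ {t // Q t} => Sum.elim (fun t => t.1) (fun t => t.1) s) ?_
  rintro (⟨s, hs⟩ | ⟨s, hs⟩) (⟨t, ht⟩ | ⟨t, ht⟩) h
  · simp only [Sum.elim_inl] at h; subst h; rfl
  · simp only [Sum.elim_inl, Sum.elim_inr] at h; subst h; exact (hPQ _ hs ht).elim
  · simp only [Sum.elim_inl, Sum.elim_inr] at h; subst h; exact (hPQ _ ht hs).elim
  · simp only [Sum.elim_inr] at h; subst h; rfl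

/-- Sidorenko's inequality for connected bipartite `H` and monotone bipartite targets. -/
theorem sidPair_bip {X Y V : Type} [DistribLattice X] [DistribLattice Y] [Fintype X] [Fintype Y]
    [Nonempty X] [Nonempty Y] [Finite V] (R : X → Y → Prop)
    (hR : ∀ x x' y y', x ≤ x' → y ≤ y' → R x y → R x' y')
    (H : SimpleGraph V) (hc : H.Connected) (hb : H.IsBipartite) : SidPair H (bip R) := by
  classical
  have := Fintype.ofFinite V
  obtain ⟨C⟩ := hb
  let col : V → Bool := fun v => decide (C v = 0)
  have hcol : ∀ u v, H.Adj u v → col u ≠ col v := by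
    intro u v h
    have h1 := C.valid h
    simp only [col]
    revert h1
    generalize C u = c1
    generalize C v = c2
    fin_cases c1 <;> fin_cases c2 <;> simp
  let col' : V → Bool := fun v => !col v
  have hcol' : ∀ u v, H.Adj u v → col' u ≠ col' v := by
    intro u v h h2
    exact hcol u v h (by simpa [col'] using h2)
  have h1 := oneSided R hR H col hcol
  have h2 := oneSided R hR H col' hcol'
  have ea : Nat.card {v // col' v = true} = Nat.card {v // col v = false} :=
    Nat.card_congr (Equiv.subtypeEquivRight (by simp [col']))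
  have eb : Nat.card {v // col' v = false} = Nat.card {v // col v = true} :=
    Nat.card_congr (Equiv.subtypeEquivRight (by simp [col']))
  rw [ea, eb] at h2
  have : Finite (H →g bip R) :=
    Finite.of_injective (fun f => (f : V → X ⊕ Y)) DFunLike.coe_injective
  obtain ⟨v0⟩ := hc.nonempty
  have hsum := card_add_card_le (T := H →g bip R) (fun f => ∀ v, (f v).isLeft = col v)
    (fun f => ∀ v, (f v).isLeft = col' v) (by
      intro f hf hf'
      have := (hf v0).symm.trans (hf' v0)
      simp [col'] at this)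
  have hab : Nat.card {v // col v = true} + Nat.card {v // col v = false} = Nat.card V := by
    have h3 := Fintype.card_subtype_compl (fun v => col v = true)
    have h4 := Fintype.card_subtype_le (fun v => col v = true)
    have h5 : Fintype.card {v // ¬ col v = true} = Fintype.card {v // col v = false} :=
      Fintype.card_congr (Equiv.subtypeEquivRight (by simp))
    rw [Nat.card_eq_fintype_card, Nat.card_eq_fintype_card, Nat.card_eq_fintype_card]
    omega
  have hx : (0 : ℝ) < Fintype.card X := by exact_mod_cast Fintype.card_pos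
  have hy : (0 : ℝ) < Fintype.card Y := by exact_mod_cast Fintype.card_pos
  have hV : 1 ≤ Nat.card V := by
    have : Nonempty V := ⟨v0⟩
    exact Nat.card_pos
  have hm := hc.card_vert_le_card_edgeSet_add_one
  have hsum' : (Nat.card {f : H →g bip R // ∀ v, (f v).isLeft = col v} : ℝ) +
      (Nat.card {f : H →g bip R // ∀ v, (f v).isLeft = col' v} : ℝ) ≤ (homs H (bip R) : ℝ) := by
    unfold homs; exact_mod_cast hsum
  have key := numeric_bip (Fintype.card X : ℝ) (Fintype.card Y : ℝ)
    (Nat.card {p : X × Y // R p.1 p.2} : ℝ) (homs H (bip R) : ℝ)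
    (Nat.card {v // col v = true}) (Nat.card {v // col v = false}) (Nat.card H.edgeSet)
    hx hy (by positivity) (by omega) (by omega) (by
      have hpos : (0 : ℝ) ≤ ((Fintype.card X : ℝ) * (Fintype.card Y : ℝ)) ^ Nat.card H.edgeSet := by
        positivity
      nlinarith [mul_le_mul_of_nonneg_right hsum' hpos])
  unfold SidPair edens tdens
  rw [card_edgeSet_bip R, Nat.card_sum, ← hab, Nat.card_eq_fintype_card (α := X),
    Nat.card_eq_fintype_card (α := Y)]
  push_cast
  exact key

/-- The three closure statements. -/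
theorem sidTarget_bip {X Y : Type} [DistribLattice X] [DistribLattice Y] [Fintype X] [Fintype Y]
    [Nonempty X] [Nonempty Y] (R : X → Y → Prop)
    (hR : ∀ x x' y y', x ≤ x' → y ≤ y' → R x y → R x' y') : SidTarget (bip R) := by
  intro V _ H hb _
  exact sidPair_of_forall_connected (bip R)
    (fun V' _ H' hc' hb' => sidPair_bip R hR H' hc' hb') V H hb

theorem SidTarget.sidPair {W : Type} [Finite W] [Nonempty W] {G : SimpleGraph W}
    (h : SidTarget G) (V : Type) [Finite V] (H : SimpleGraph V) (hb : H.IsBipartite) :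
    SidPair H G := by
  by_cases he : H.edgeSet.Nonempty
  · exact h V H hb he
  · exact sidPair_of_edgeless H G he

theorem sidTarget_sum {W₁ W₂ : Type} [Finite W₁] [Finite W₂] [Nonempty W₁] [Nonempty W₂]
    (G₁ : SimpleGraph W₁) (G₂ : SimpleGraph W₂) (h₁ : SidTarget G₁) (h₂ : SidTarget G₂) :
    SidTarget (G₁ ⊕g G₂) := by
  intro V _ H hb _
  exact sidPair_of_forall_connected (G₁ ⊕g G₂)
    (fun V' _ H' hc' hb' => sidPair_sum H' hc' G₁ G₂ (h₁.sidPair V' H' hb') (h₂.sidPair V' H' hb'))
    V H hb

theorem sidTarget_tensor {W₁ W₂ : Type} [Finite W₁] [Finite W₂]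
    (G₁ : SimpleGraph W₁) (G₂ : SimpleGraph W₂) (h₁ : SidTarget G₁) (h₂ : SidTarget G₂) :
    SidTarget (tensor G₁ G₂) := by
  intro V _ H hb he
  exact sidPair_tensor H G₁ G₂ (h₁ V H hb he) (h₂ V H hb he)

end Vale.Agent.P050
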