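import Vale.Agent.Lib.P050.Main

/-!
# P050 module PD: targets: complete bipartite plus pendant vertices   (FROZEN statements)

`IsPendantRel R`: every `y` is adjacent to all of `X` or to at most one vertex of `X`.

## `corr0` (the heart; pure combinatorics).  `q = |X|`, `g_b(σ) = ∑_i β i * 1[σ ≡ i on N b]`.
Claim: `q^|A| ∏_{b∈S} (∑β / q^|N b|) ≤ ∑_σ ∏_{b∈S} g_b(σ)`.
ROUTE 1 (labelling).  `∑_σ ∏_b g_b(σ) = ∑_{c : S → X} ∏_b β (c b) * #{σ | ∀ b ∈ S, ∀ a ∈ N b, σ a = c b}`.
By induction over the vertices `a` build a labelling `l : ι → ι` such that `l b = l b'` whenever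
`N b ∩ N b' ≠ ∅` (`b, b' ∈ S`) and `|l '' S| ≥ |S| + |⋃ N b| - ∑ |N b|` (processing the vertex `a` merges the
`t_a` labels of the `b ∋ a` into one: at most `t_a - 1` labels are lost; `∑_a (t_a - 1) = ∑|N b| - |⋃ N b|`).
Keep only the colourings `c = c' ∘ l`; each has exactly `q^(|A| - |⋃ N b|)` compatible `σ`; and
`∑_{c'} ∏_b β (c' (l b)) = ∏_{labels} ∑_i β i ^ (size of the class) ≥ ∏ (∑β)^k / q^(k-1)`
(`inner_le_nnorm_mul_nnorm`-free: `Real.pow_sum_div_card_le_sum_pow` / `inner_le...`).
ROUTE 2 (eliminate one vertex of `A` at a time; generalise to weights `w_b : X → ℝ≥0` that are pairwise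
similarly ordered, e.g. `w_b = β ^ k_b`): summing over `σ a₀` merges all `b ∋ a₀` into one constraint with
weight `∏ w_b` and set `⋃ N b \ {a₀}`; Chebyshev's sum inequality `∑_i ∏_b w_b i ≥ q^(1-t) ∏_b ∑_i w_b i`
(`MonovaryOn.sum_mul_sum_le_card_mul_sum`) and `|⋃ N b \ {a₀}| ≤ ∑ (|N b| - 1)`.

## `corr`: expand both products with `Finset.prod_add` and apply `corr0` to every subset of `S`.

## `pendant_numeric`: weighted power mean (`(convexOn_pow d)` / `inner_le...`) with weights `α/y, βt/y, n0/y` at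
the points `1, 1/q, 0`.
-/

namespace Vale.Agent.P050

open SimpleGraph

/-- Every `y` is adjacent to all of `X` or to at most one element of `X`. -/
def IsPendantRel {X Y : Type} (R : X → Y → Prop) : Prop :=
  ∀ y, (∀ x, R x y) ∨ (∀ x x', R x y → R x' y → x = x')

open Classical in
private noncomputable def gg {A X : Type} [Fintype X] (β : X → ℝ) (N : Finset A) (k : ℕ)
    (σ : A → X) : ℝ :=
  ∑ i, β i ^ k * (if ∀ a ∈ N, σ a = i then 1 else 0)

private lemma sum_update {A X : Type} [Fintype A] [Fintype X] [DecidableEq A]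
    (F : (A → X) → ℝ) (a0 : A) :
    ∑ σ : A → X, ∑ j : X, F (Function.update σ a0 j) =
      (Fintype.card X : ℝ) * ∑ σ : A → X, F σ := by
  classical
  have hinv : Function.Involutive
      (fun p : (A → X) × X => (Function.update p.1 a0 p.2, p.1 a0)) := by
    rintro ⟨σ, j⟩
    simp
  have h1 : ∑ p : (A → X) × X, F (Function.update p.1 a0 p.2) = ∑ p : (A → X) × X, F p.1 :=
    Fintype.sum_equiv hinv.toPerm _ _ (fun p => rfl)
  rw [Fintype.sum_prod_type, Fintype.sum_prod_type] at h1
  rw [h1]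
  simp [Finset.mul_sum]

private lemma gg_update_of_not_mem {A X : Type} [Fintype X] [DecidableEq A] (β : X → ℝ)
    (N : Finset A) (k : ℕ) (σ : A → X) (a0 : A) (j : X) (h : a0 ∉ N) :
    gg β N k (Function.update σ a0 j) = gg β N k σ := by
  unfold gg
  refine Finset.sum_congr rfl (fun i _ => ?_)
  have : (∀ a ∈ N, Function.update σ a0 j a = i) ↔ (∀ a ∈ N, σ a = i) := by
    refine forall₂_congr (fun a ha => ?_)
    rw [Function.update_of_ne (fun e : a = a0 => h (e ▸ ha))]
  by_cases hc : ∀ a ∈ N, σ a = i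
  · rw [if_pos hc, if_pos (this.2 hc)]
  · rw [if_neg hc, if_neg (fun H => hc (this.1 H))]

private lemma sum_gg_update_of_mem {A X : Type} [Fintype X] [DecidableEq A] (β : X → ℝ)
    (N : Finset A) (k : ℕ) (σ : A → X) (a0 : A) (h : a0 ∈ N) :
    ∑ j, gg β N k (Function.update σ a0 j) = gg β (N.erase a0) k σ := by
  unfold gg
  refine Finset.sum_congr rfl (fun j _ => ?_)
  rw [Finset.sum_eq_single j]
  · have : (∀ a ∈ N, Function.update σ a0 j a = j) ↔ (∀ a ∈ N.erase a0, σ a = j) := by
      constructor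
      · intro H a ha
        have h1 := H a (Finset.mem_of_mem_erase ha)
        rwa [Function.update_of_ne (Finset.ne_of_mem_erase ha)] at h1
      · intro H a ha
        by_cases e : a = a0
        · subst e; simp
        · rw [Function.update_of_ne e]; exact H a (Finset.mem_erase.2 ⟨e, ha⟩)
    by_cases hc : ∀ a ∈ N.erase a0, σ a = j
    · rw [if_pos hc, if_pos (this.2 hc)]
    · rw [if_neg hc, if_neg (fun H => hc (this.1 H))]
  · intro i _ hij
    have : ¬ (∀ a ∈ N, Function.update σ a0 j a = i) := by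
      intro H
      have := H a0 h
      rw [Function.update_self] at this
      exact hij this.symm
    simp [this]
  · intro h; exact absurd (Finset.mem_univ _) h

open Classical in
private lemma gg_of_mem {A X : Type} [Fintype X] (β : X → ℝ)
    (N : Finset A) (k : ℕ) (σ : A → X) (a0 : A) (h : a0 ∈ N) :
    gg β N k σ = β (σ a0) ^ k * (if ∀ a ∈ N, σ a = σ a0 then 1 else 0) := by
  classical
  unfold gg
  rw [Finset.sum_eq_single (σ a0)]
  · intro i _ hi
    have : ¬ (∀ a ∈ N, σ a = i) := fun H => hi (H a0 h).symm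
    simp [this]
  · intro h; exact absurd (Finset.mem_univ _) h

private lemma gg_mul {A X : Type} [Fintype X] [DecidableEq A] (β : X → ℝ)
    (N N' : Finset A) (k k' : ℕ) (σ : A → X) (a0 : A) (h : a0 ∈ N) (h' : a0 ∈ N') :
    gg β N k σ * gg β N' k' σ = gg β (N ∪ N') (k + k') σ := by
  classical
  rw [gg_of_mem β N k σ a0 h, gg_of_mem β N' k' σ a0 h',
    gg_of_mem β (N ∪ N') (k + k') σ a0 (Finset.mem_union_left _ h)]
  by_cases c1 : ∀ a ∈ N, σ a = σ a0
  · by_cases c2 : ∀ a ∈ N', σ a = σ a0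
    · have c3 : ∀ a ∈ N ∪ N', σ a = σ a0 := by
        intro a ha
        rcases Finset.mem_union.1 ha with h | h
        · exact c1 a h
        · exact c2 a h
      rw [if_pos c1, if_pos c2, if_pos c3]; ring
    · have c3 : ¬ ∀ a ∈ N ∪ N', σ a = σ a0 :=
        fun H => c2 (fun a ha => H a (Finset.mem_union_right _ ha))
      rw [if_neg c2, if_neg c3]; ring
  · have c3 : ¬ ∀ a ∈ N ∪ N', σ a = σ a0 :=
      fun H => c1 (fun a ha => H a (Finset.mem_union_left _ ha))
    rw [if_neg c1, if_neg c3]; ring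

private lemma cheb {X : Type} [Fintype X] (β : X → ℝ) (hβ : ∀ i, 0 ≤ β i) (k k' : ℕ) :
    (∑ i, β i ^ k) * (∑ i, β i ^ k') ≤ (Fintype.card X : ℝ) * ∑ i, β i ^ (k + k') := by
  have hm : Monovary (fun i => β i ^ k) (fun i => β i ^ k') := by
    intro i j hij
    have : β i < β j := lt_of_pow_lt_pow_left₀ k' (hβ j) hij
    exact pow_le_pow_left₀ (hβ i) this.le k
  have := hm.sum_mul_sum_le_card_mul_sum
  simpa [pow_add] using this

open Classical in
private theorem corr0_gen {A X ι : Type} [Fintype A] [Fintype X] [Nonempty X] (β : X → ℝ)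
    (hβ : ∀ i, 0 ≤ β i) :
    ∀ (M : ℕ) (S : Finset ι) (N : ι → Finset A) (k : ι → ℕ), ∑ b ∈ S, (N b).card = M →
    (Fintype.card X : ℝ) ^ Fintype.card A *
        ∏ b ∈ S, ((∑ i, β i ^ k b) / (Fintype.card X : ℝ) ^ (N b).card) ≤
      ∑ σ : A → X, ∏ b ∈ S, gg β (N b) (k b) σ := by
  have hq : (0:ℝ) < Fintype.card X := by exact_mod_cast Fintype.card_pos
  have hq1 : (1:ℝ) ≤ Fintype.card X := by exact_mod_cast (Fintype.card_pos : 0 < Fintype.card X)
  set q : ℝ := (Fintype.card X : ℝ) with hqdef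
  have hP : ∀ n : ℕ, 0 ≤ ∑ i, β i ^ n := fun n => Finset.sum_nonneg (fun i _ => pow_nonneg (hβ i) _)
  intro M
  induction M using Nat.strong_induction_on with
  | _ M ih =>
  intro S N k hM
  by_cases h0 : ∀ b ∈ S, N b = ∅
  · have e1 : ∀ σ : A → X, ∏ b ∈ S, gg β (N b) (k b) σ = ∏ b ∈ S, (∑ i, β i ^ k b) := by
      intro σ
      refine Finset.prod_congr rfl (fun b hb => ?_)
      rw [h0 b hb]; simp [gg]
    have e2 : ∏ b ∈ S, ((∑ i, β i ^ k b) / q ^ (N b).card) = ∏ b ∈ S, (∑ i, β i ^ k b) := by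
      refine Finset.prod_congr rfl (fun b hb => ?_)
      rw [h0 b hb]; simp
    rw [e2]
    simp only [e1]
    rw [Finset.sum_const, Finset.card_univ, Fintype.card_fun, nsmul_eq_mul]
    push_cast
    exact le_refl _
  · push Not at h0
    obtain ⟨b0, hb0, hne⟩ := h0
    obtain ⟨a0, ha0⟩ := hne
    by_cases h1 : ∃ b1 ∈ S, b1 ≠ b0 ∧ a0 ∈ N b1
    · obtain ⟨b1, hb1, hne1, ha1⟩ := h1
      have hb0' : b0 ∈ S.erase b1 := Finset.mem_erase.2 ⟨hne1.symm, hb0⟩
      set T := (S.erase b1).erase b0 with hT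
      have hTb0 : ∀ b ∈ T, b ≠ b0 := fun b hb => Finset.ne_of_mem_erase hb
      have dec : ∀ f : ι → ℝ, ∏ b ∈ S, f b = f b1 * (f b0 * ∏ b ∈ T, f b) := by
        intro f
        rw [← Finset.mul_prod_erase S f hb1, ← Finset.mul_prod_erase (S.erase b1) f hb0']
      have dec' : ∀ f : ι → ℝ, ∏ b ∈ S.erase b1, f b = f b0 * ∏ b ∈ T, f b := by
        intro f
        rw [← Finset.mul_prod_erase (S.erase b1) f hb0']
      have decs : ∀ f : ι → ℕ, ∑ b ∈ S, f b = f b1 + (f b0 + ∑ b ∈ T, f b) := by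
        intro f
        rw [← Finset.add_sum_erase S f hb1, ← Finset.add_sum_erase (S.erase b1) f hb0']
      have decs' : ∀ f : ι → ℕ, ∑ b ∈ S.erase b1, f b = f b0 + ∑ b ∈ T, f b := by
        intro f
        rw [← Finset.add_sum_erase (S.erase b1) f hb0']
      set N' := Function.update N b0 (N b0 ∪ N b1) with hN'
      set k' := Function.update k b0 (k b0 + k b1) with hk'
      have hN'0 : N' b0 = N b0 ∪ N b1 := by simp [hN']
      have hk'0 : k' b0 = k b0 + k b1 := by simp [hk']
      have hN'T : ∀ b ∈ T, N' b = N b := fun b hb => by simp [hN', hTb0 b hb]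
      have hk'T : ∀ b ∈ T, k' b = k b := fun b hb => by simp [hk', hTb0 b hb]
      have hcard : (N b0 ∪ N b1).card + 1 ≤ (N b0).card + (N b1).card := by
        have h2 := Finset.card_union_add_card_inter (N b0) (N b1)
        have h3 : 0 < (N b0 ∩ N b1).card := Finset.card_pos.2 ⟨a0, Finset.mem_inter.2 ⟨ha0, ha1⟩⟩
        omega
      have hsT : ∑ b ∈ T, (N' b).card = ∑ b ∈ T, (N b).card :=
        Finset.sum_congr rfl (fun b hb => by rw [hN'T b hb])
      have hM' : ∑ b ∈ S.erase b1, (N' b).card < M := by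
        rw [← hM, decs (fun b => (N b).card), decs' (fun b => (N' b).card), hN'0, hsT]
        omega
      have IH := ih _ hM' (S.erase b1) N' k' rfl
      have hR : ∀ σ : A → X,
          ∏ b ∈ S.erase b1, gg β (N' b) (k' b) σ = ∏ b ∈ S, gg β (N b) (k b) σ := by
        intro σ
        have hTp : ∏ b ∈ T, gg β (N' b) (k' b) σ = ∏ b ∈ T, gg β (N b) (k b) σ :=
          Finset.prod_congr rfl (fun b hb => by rw [hN'T b hb, hk'T b hb])
        rw [dec (fun b => gg β (N b) (k b) σ), dec' (fun b => gg β (N' b) (k' b) σ), hN'0, hk'0,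
          ← gg_mul β (N b0) (N b1) (k b0) (k b1) σ a0 ha0 ha1, hTp]
        ring
      simp only [hR] at IH
      refine le_trans ?_ IH
      apply mul_le_mul_of_nonneg_left _ (by positivity)
      have hTp : ∏ b ∈ T, ((∑ i, β i ^ k' b) / q ^ (N' b).card) =
          ∏ b ∈ T, ((∑ i, β i ^ k b) / q ^ (N b).card) :=
        Finset.prod_congr rfl (fun b hb => by rw [hN'T b hb, hk'T b hb])
      rw [dec (fun b => (∑ i, β i ^ k b) / q ^ (N b).card),
        dec' (fun b => (∑ i, β i ^ k' b) / q ^ (N' b).card), hN'0, hk'0, hTp, ← mul_assoc]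
      apply mul_le_mul_of_nonneg_right
      · rw [div_mul_div_comm, div_le_div_iff₀ (by positivity) (by positivity)]
        have c := cheb β hβ (k b0) (k b1)
        have hp : q ^ (N b0 ∪ N b1).card * q ≤ q ^ (N b1).card * q ^ (N b0).card := by
          rw [← pow_succ, ← pow_add]
          exact pow_le_pow_right₀ hq1 (by omega)
        calc (∑ i, β i ^ k b1) * (∑ i, β i ^ k b0) * q ^ (N b0 ∪ N b1).card
            = ((∑ i, β i ^ k b0) * (∑ i, β i ^ k b1)) * q ^ (N b0 ∪ N b1).card := by ring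
          _ ≤ (q * ∑ i, β i ^ (k b0 + k b1)) * q ^ (N b0 ∪ N b1).card :=
              mul_le_mul_of_nonneg_right c (by positivity)
          _ = (∑ i, β i ^ (k b0 + k b1)) * (q ^ (N b0 ∪ N b1).card * q) := by ring
          _ ≤ (∑ i, β i ^ (k b0 + k b1)) * (q ^ (N b1).card * q ^ (N b0).card) :=
              mul_le_mul_of_nonneg_left hp (hP _)
      · exact Finset.prod_nonneg (fun b _ => div_nonneg (hP _) (by positivity))
    · push Not at h1
      set T := S.erase b0 with hT
      have hTb0 : ∀ b ∈ T, b ≠ b0 := fun b hb => Finset.ne_of_mem_erase hb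
      have hTS : ∀ b ∈ T, b ∈ S := fun b hb => Finset.mem_of_mem_erase hb
      have dec : ∀ f : ι → ℝ, ∏ b ∈ S, f b = f b0 * ∏ b ∈ T, f b :=
        fun f => (Finset.mul_prod_erase S f hb0).symm
      have decs : ∀ f : ι → ℕ, ∑ b ∈ S, f b = f b0 + ∑ b ∈ T, f b :=
        fun f => (Finset.add_sum_erase S f hb0).symm
      set N' := Function.update N b0 ((N b0).erase a0) with hN'
      have hN'0 : N' b0 = (N b0).erase a0 := by simp [hN']
      have hN'T : ∀ b ∈ T, N' b = N b := fun b hb => by simp [hN', hTb0 b hb]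
      have hc : ((N b0).erase a0).card + 1 = (N b0).card := Finset.card_erase_add_one ha0
      have hsT : ∑ b ∈ T, (N' b).card = ∑ b ∈ T, (N b).card :=
        Finset.sum_congr rfl (fun b hb => by rw [hN'T b hb])
      have hM' : ∑ b ∈ S, (N' b).card < M := by
        rw [← hM, decs (fun b => (N' b).card), decs (fun b => (N b).card), hN'0, hsT]
        omega
      have IH := ih _ hM' S N' k rfl
      have hF : ∀ σ : A → X,
          ∑ j, ∏ b ∈ S, gg β (N b) (k b) (Function.update σ a0 j) =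
            ∏ b ∈ S, gg β (N' b) (k b) σ := by
        intro σ
        have h2 : ∀ j, ∏ b ∈ S, gg β (N b) (k b) (Function.update σ a0 j) =
            gg β (N b0) (k b0) (Function.update σ a0 j) * ∏ b ∈ T, gg β (N b) (k b) σ := by
          intro j
          rw [dec (fun b => gg β (N b) (k b) (Function.update σ a0 j))]
          congr 1
          exact Finset.prod_congr rfl
            (fun b hb => gg_update_of_not_mem β _ _ σ a0 j (h1 b (hTS b hb) (hTb0 b hb)))
        simp only [h2]
        rw [← Finset.sum_mul, sum_gg_update_of_mem β _ _ σ a0 ha0,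
          dec (fun b => gg β (N' b) (k b) σ), hN'0]
        congr 1
        exact Finset.prod_congr rfl (fun b hb => by rw [hN'T b hb])
      have hsum := sum_update (fun σ : A → X => ∏ b ∈ S, gg β (N b) (k b) σ) a0
      simp only [hF] at hsum
      rw [hsum] at IH
      have hL : ∏ b ∈ S, ((∑ i, β i ^ k b) / q ^ (N' b).card) =
          q * ∏ b ∈ S, ((∑ i, β i ^ k b) / q ^ (N b).card) := by
        have hTp : ∏ b ∈ T, ((∑ i, β i ^ k b) / q ^ (N' b).card) =
            ∏ b ∈ T, ((∑ i, β i ^ k b) / q ^ (N b).card) :=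
          Finset.prod_congr rfl (fun b hb => by rw [hN'T b hb])
        rw [dec (fun b => (∑ i, β i ^ k b) / q ^ (N' b).card),
          dec (fun b => (∑ i, β i ^ k b) / q ^ (N b).card), hN'0, ← hc, hTp, pow_succ]
        field_simp
      rw [hL] at IH
      have h3 : q * (q ^ Fintype.card A * ∏ b ∈ S, ((∑ i, β i ^ k b) / q ^ (N b).card)) ≤
          q * ∑ σ : A → X, ∏ b ∈ S, gg β (N b) (k b) σ := by
        calc q * (q ^ Fintype.card A * ∏ b ∈ S, ((∑ i, β i ^ k b) / q ^ (N b).card))
            = q ^ Fintype.card A * (q * ∏ b ∈ S, ((∑ i, β i ^ k b) / q ^ (N b).card)) := by ring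
          _ ≤ _ := IH
      exact le_of_mul_le_mul_left h3 hq

open Classical in
theorem corr0 {A X ι : Type} [Fintype A] [Fintype X] [Nonempty X] (S : Finset ι)
    (N : ι → Finset A) (β : X → ℝ) (hβ : ∀ i, 0 ≤ β i) :
    (Fintype.card X : ℝ) ^ Fintype.card A *
        ∏ b ∈ S, ((∑ i, β i) / (Fintype.card X : ℝ) ^ (N b).card) ≤
      ∑ σ : A → X, ∏ b ∈ S, ∑ i, β i * (if ∀ a ∈ N b, σ a = i then 1 else 0) := by
  have h := corr0_gen β hβ _ S N (fun _ => 1) rfl
  simpa [gg] using h

open Classical in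
theorem corr {A X ι : Type} [Fintype A] [Fintype X] [Nonempty X] (S : Finset ι)
    (N : ι → Finset A) (α : ℝ) (β : X → ℝ) (hα : 0 ≤ α) (hβ : ∀ i, 0 ≤ β i) :
    (Fintype.card X : ℝ) ^ Fintype.card A *
        ∏ b ∈ S, (α + (∑ i, β i) / (Fintype.card X : ℝ) ^ (N b).card) ≤
      ∑ σ : A → X, ∏ b ∈ S, (α + ∑ i, β i * (if ∀ a ∈ N b, σ a = i then 1 else 0)) := by
  simp only [Finset.prod_add]
  rw [Finset.mul_sum, Finset.sum_comm]
  refine Finset.sum_le_sum fun t _ => ?_
  rw [← Finset.mul_sum, mul_left_comm]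
  exact mul_le_mul_of_nonneg_left (corr0 (S \ t) N β hβ) (Finset.prod_nonneg fun _ _ => hα)

theorem pendant_numeric (α βt n0 q : ℝ) (d : ℕ) (hα : 0 ≤ α) (hβ : 0 ≤ βt) (hn : 0 ≤ n0)
    (hy : 0 < α + βt + n0) (hq : 1 ≤ q) (hd : 1 ≤ d) :
    (α + βt + n0) * ((q * α + βt) / (q * (α + βt + n0))) ^ d ≤ α + βt / q ^ d := by
  set y := α + βt + n0 with hy'
  have hq0 : 0 < q := by linarith
  have h : (α / y * 1 + βt / y * (1 / q) + n0 / y * 0) ^ d
      ≤ α / y * 1 ^ d + βt / y * (1 / q) ^ d + n0 / y * 0 ^ d := by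
    have := Real.pow_arith_mean_le_arith_mean_pow (Finset.univ : Finset (Fin 3))
      ![α / y, βt / y, n0 / y] ![1, 1 / q, 0]
      (by
        intro i _
        fin_cases i
        · exact div_nonneg hα hy.le
        · exact div_nonneg hβ hy.le
        · exact div_nonneg hn hy.le)
      (by
        simp only [Fin.sum_univ_three, Matrix.cons_val_zero, Matrix.cons_val_one,
          Matrix.cons_val_two, Matrix.head_cons, Matrix.tail_cons]
        rw [← add_div, ← add_div, ← hy']
        exact div_self hy.ne')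
      (by
        intro i _
        fin_cases i
        · exact zero_le_one
        · exact (one_div_pos.mpr hq0).le
        · exact le_refl _) d
    simpa [Fin.sum_univ_three] using this
  have e : (q * α + βt) / (q * y) = α / y * 1 + βt / y * (1 / q) + n0 / y * 0 := by
    field_simp
    ring
  rw [e]
  have h0 : (0 : ℝ) ^ d = 0 := zero_pow (by omega)
  have h2 := mul_le_mul_of_nonneg_left h hy.le
  have e2 : y * (α / y * 1 ^ d + βt / y * (1 / q) ^ d + n0 / y * 0 ^ d) = α + βt / q ^ d := by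
    rw [h0, one_pow, one_div, inv_pow]
    field_simp
    ring
  rw [e2] at h2
  exact h2

end Vale.Agent.P050
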