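import Vale.Agent.Lib.P050.Pendant

/-!
# P050 module PC: counting for pendant targets   (FROZEN statements)

Symbols: `al R` counts the full `y`, `be R i` the non-full `y` adjacent to `i`, `nz R` the isolated `y`.
* `card_omega`: split `ω = (σ, τ)` (`Equiv.arrowProdEquivProdArrow`); for fixed `σ` the conditions on the
  `τ v` are independent (`Fintype.card_pi` / `Finset.prod_univ_sum`-type argument).
* `count_y`: a full `y` always qualifies; a `y` with `R i y`, not full, qualifies iff `σ ≡ i` on `N`
  (uniqueness from `IsPendantRel`); an isolated `y` never does (`N` nonempty); at most one `i` has `σ ≡ i`.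
* `card_R`, `card_Y`: classify `y` as full / exactly one neighbour / isolated.
* `psi_pendant` (assembly; uses everything above, `corr`, `pendant_numeric`, `card_oriented` as black boxes).
  `N v := univ.filter (fun u => H.Adj u v ∧ col u = true)`, `∑_v |N v| = m` (`card_oriented`),
  `S := univ.filter (fun v => (N v).Nonempty)`.  By `card_omega`,
  `Ψ = ∑_σ ∏_v F_v(σ)`, `F_v = |Y|` for `v ∉ S`, `F_v = al + ∑_i be i * 1[σ ≡ i on N v]` for `v ∈ S` (`count_y`).
  `corr` (with `A = V`): `∑_σ ∏_{v∈S} F_v ≥ q^|V| ∏_{v∈S} (al + (∑ be)/q^|N v|)`, and by `pendant_numeric`,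
  `card_R`, `card_Y`: `al + (∑ be)/q^d ≥ y (r/(q y))^d`.  Hence `Ψ ≥ y^|V| q^|V| (r/(q y))^m`.
-/

namespace Vale.Agent.P050

open SimpleGraph

noncomputable def al {X Y : Type} (R : X → Y → Prop) : ℝ := (Nat.card {y : Y // ∀ x, R x y} : ℝ)

noncomputable def be {X Y : Type} (R : X → Y → Prop) (i : X) : ℝ :=
  (Nat.card {y : Y // R i y ∧ ¬ ∀ x, R x y} : ℝ)

noncomputable def nz {X Y : Type} (R : X → Y → Prop) : ℝ :=
  (Nat.card {y : Y // ∀ x, ¬ R x y} : ℝ)

open Classical in
theorem card_omega {X Y V : Type} [Fintype X] [Fintype Y] [Fintype V] (R : X → Y → Prop)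
    (H : SimpleGraph V) (col : V → Bool) :
    (Nat.card {ω : V → X × Y // ∀ u v, H.Adj u v → col u = true → R (ω u).1 (ω v).2} : ℝ) =
      ∑ σ : V → X, ∏ v, (Nat.card {y : Y // ∀ u, H.Adj u v → col u = true → R (σ u) y} : ℝ) := by
  have e : {ω : V → X × Y // ∀ u v, H.Adj u v → col u = true → R (ω u).1 (ω v).2} ≃
      Σ σ : V → X, (∀ v, {y : Y // ∀ u, H.Adj u v → col u = true → R (σ u) y}) :=
    { toFun := fun ω => ⟨fun u => (ω.1 u).1, fun v => ⟨(ω.1 v).2, fun u h hc => ω.2 u v h hc⟩⟩
      invFun := fun p => ⟨fun v => (p.1 v, (p.2 v).1), fun u v h hc => (p.2 v).2 u h hc⟩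
      left_inv := fun ω => Subtype.ext (funext fun v => rfl)
      right_inv := fun p => rfl }
  rw [Nat.card_congr e, Nat.card_sigma]
  push_cast
  apply Finset.sum_congr rfl
  intro σ _
  rw [Nat.card_pi]
  push_cast
  rfl

open Classical in
theorem count_y {X Y V : Type} [Fintype X] [Fintype Y] (R : X → Y → Prop)
    (hR : IsPendantRel R) (N : Finset V) (hN : N.Nonempty) (σ : V → X) :
    (Nat.card {y : Y // ∀ u ∈ N, R (σ u) y} : ℝ) =
      al R + ∑ i, be R i * (if ∀ u ∈ N, σ u = i then 1 else 0) := by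
  obtain ⟨u0, hu0⟩ := hN
  have hsum : ∑ i, be R i * (if ∀ u ∈ N, σ u = i then (1 : ℝ) else 0)
      = be R (σ u0) * (if ∀ u ∈ N, σ u = σ u0 then 1 else 0) := by
    apply Finset.sum_eq_single (σ u0)
    · intro i _ hi
      rw [if_neg, mul_zero]
      intro h
      exact hi (h u0 hu0).symm
    · intro h
      exact absurd (Finset.mem_univ _) h
  rw [hsum]
  unfold al be
  by_cases hc : ∀ u ∈ N, σ u = σ u0
  · rw [if_pos hc, mul_one]
    have hcard : Nat.card {y : Y // ∀ u ∈ N, R (σ u) y}
        = Nat.card {y : Y // ∀ x, R x y} + Nat.card {y : Y // R (σ u0) y ∧ ¬ ∀ x, R x y} := by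
      simp only [Nat.card_eq_fintype_card, Fintype.card_subtype]
      rw [← Finset.card_union_of_disjoint]
      · congr 1
        ext y
        simp only [Finset.mem_filter, Finset.mem_univ, true_and, Finset.mem_union]
        constructor
        · intro h
          by_cases hf : ∀ x, R x y
          · exact Or.inl hf
          · exact Or.inr ⟨h u0 hu0, hf⟩
        · rintro (h | h)
          · intro u _
            exact h _
          · intro u hu
            rw [hc u hu]
            exact h.1
      · rw [Finset.disjoint_filter]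
        intro y _ h1 h2
        exact h2.2 h1
    rw [hcard]
    push_cast
    rfl
  · rw [if_neg hc, mul_zero, add_zero]
    congr 1
    apply Nat.card_congr
    apply Equiv.subtypeEquivRight
    intro y
    constructor
    · intro h
      rcases hR y with hf | hu
      · exact hf
      · exfalso
        apply hc
        intro u hu'
        exact hu _ _ (h u hu') (h u0 hu0)
    · intro h u _
      exact h _

theorem card_R {X Y : Type} [Fintype X] [Fintype Y] [Nonempty X] (R : X → Y → Prop)
    (hR : IsPendantRel R) :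
    (Nat.card {p : X × Y // R p.1 p.2} : ℝ) = (Fintype.card X : ℝ) * al R + ∑ i, be R i := by
  classical
  have h1 : ∀ i : X, (Nat.card {y : Y // R i y} : ℝ) = al R + be R i := by
    intro i
    unfold al be
    have hc : Nat.card {y : Y // R i y}
        = Nat.card {y : Y // ∀ x, R x y} + Nat.card {y : Y // R i y ∧ ¬ ∀ x, R x y} := by
      simp only [Nat.card_eq_fintype_card, Fintype.card_subtype]
      rw [← Finset.card_union_of_disjoint]
      · congr 1
        ext y
        simp only [Finset.mem_filter, Finset.mem_univ, true_and, Finset.mem_union]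
        constructor
        · intro h
          by_cases hf : ∀ x, R x y
          · exact Or.inl hf
          · exact Or.inr ⟨h, hf⟩
        · rintro (h | h)
          · exact h i
          · exact h.1
      · rw [Finset.disjoint_filter]
        intro y _ h1 h2
        exact h2.2 h1
    rw [hc]
    push_cast
    rfl
  have e : {p : X × Y // R p.1 p.2} ≃ Σ i : X, {y : Y // R i y} :=
    { toFun := fun p => ⟨p.1.1, ⟨p.1.2, p.2⟩⟩
      invFun := fun s => ⟨(s.1, s.2.1), s.2.2⟩
      left_inv := fun p => rfl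
      right_inv := fun s => rfl }
  rw [Nat.card_congr e, Nat.card_sigma]
  push_cast
  rw [Finset.sum_congr rfl (fun i _ => h1 i), Finset.sum_add_distrib]
  simp [Finset.card_univ]

theorem card_Y {X Y : Type} [Fintype X] [Fintype Y] [Nonempty X] (R : X → Y → Prop)
    (hR : IsPendantRel R) :
    (Fintype.card Y : ℝ) = al R + ∑ i, be R i + nz R := by
  classical
  have hbe : ∀ i : X, be R i
      = (((Finset.univ.filter (fun y : Y => R i y ∧ ¬ ∀ x, R x y)).card : ℕ) : ℝ) := by
    intro i
    unfold be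
    rw [Nat.card_eq_fintype_card, Fintype.card_subtype]
  have hal : al R = (((Finset.univ.filter (fun y : Y => ∀ x, R x y)).card : ℕ) : ℝ) := by
    unfold al
    rw [Nat.card_eq_fintype_card, Fintype.card_subtype]
  have hnz : nz R = (((Finset.univ.filter (fun y : Y => ∀ x, ¬ R x y)).card : ℕ) : ℝ) := by
    unfold nz
    rw [Nat.card_eq_fintype_card, Fintype.card_subtype]
  have hU : (Finset.univ.filter (fun y : Y => (∃ i, R i y) ∧ ¬ ∀ x, R x y))
      = Finset.univ.biUnion
        (fun i : X => Finset.univ.filter (fun y : Y => R i y ∧ ¬ ∀ x, R x y)) := by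
    ext y
    simp only [Finset.mem_filter, Finset.mem_univ, true_and, Finset.mem_biUnion]
    constructor
    · rintro ⟨⟨i, hi⟩, hf⟩
      exact ⟨i, hi, hf⟩
    · rintro ⟨i, hi, hf⟩
      exact ⟨⟨i, hi⟩, hf⟩
  have hsum : (Finset.univ.filter (fun y : Y => (∃ i, R i y) ∧ ¬ ∀ x, R x y)).card
      = ∑ i : X, (Finset.univ.filter (fun y : Y => R i y ∧ ¬ ∀ x, R x y)).card := by
    rw [hU]
    apply Finset.card_biUnion
    intro i _ j _ hij
    show Disjoint (Finset.univ.filter (fun y : Y => R i y ∧ ¬ ∀ x, R x y))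
      (Finset.univ.filter (fun y : Y => R j y ∧ ¬ ∀ x, R x y))
    rw [Finset.disjoint_filter]
    intro y _ h1 h2
    rcases hR y with hf | hu
    · exact h1.2 hf
    · exact hij (hu _ _ h1.1 h2.1)
  have hs1 : (Finset.univ.filter (fun y : Y => ∀ x, R x y)).card
      + (Finset.univ.filter (fun y : Y => ¬ ∀ x, R x y)).card = Fintype.card Y := by
    rw [Finset.card_filter_add_card_filter_not, Finset.card_univ]
  have hs2 : (Finset.univ.filter (fun y : Y => ¬ ∀ x, R x y)).card
      = (Finset.univ.filter (fun y : Y => (∃ i, R i y) ∧ ¬ ∀ x, R x y)).card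
        + (Finset.univ.filter (fun y : Y => ∀ x, ¬ R x y)).card := by
    rw [← Finset.card_union_of_disjoint]
    · congr 1
      ext y
      simp only [Finset.mem_filter, Finset.mem_univ, true_and, Finset.mem_union]
      constructor
      · intro h
        by_cases he : ∃ i, R i y
        · exact Or.inl ⟨he, h⟩
        · right
          intro x hx
          exact he ⟨x, hx⟩
      · rintro (h | h)
        · exact h.2
        · intro hf
          obtain ⟨x0⟩ := (inferInstance : Nonempty X)
          exact h x0 (hf x0)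
    · rw [Finset.disjoint_filter]
      rintro y _ ⟨⟨i, hi⟩, _⟩ h2
      exact h2 i hi
  rw [hal, hnz, Finset.sum_congr rfl (fun i _ => hbe i), ← Nat.cast_sum, ← hsum, ← hs1, hs2]
  push_cast
  ring

theorem psi_pendant {X Y V : Type} [Fintype X] [Fintype Y] [Nonempty X] [Nonempty Y] [Fintype V]
    (R : X → Y → Prop) (hR : IsPendantRel R) (H : SimpleGraph V) (col : V → Bool)
    (hcol : ∀ u v, H.Adj u v → col u ≠ col v) :
    ((Fintype.card X : ℝ) * (Fintype.card Y : ℝ)) ^ Fintype.card V *
        (Nat.card {p : X × Y // R p.1 p.2} : ℝ) ^ Nat.card H.edgeSet ≤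
      (Nat.card {ω : V → X × Y // ∀ u v, H.Adj u v → col u = true → R (ω u).1 (ω v).2} : ℝ) *
        ((Fintype.card X : ℝ) * (Fintype.card Y : ℝ)) ^ Nat.card H.edgeSet := by
  classical
  have hrR := card_R R hR
  have hyY := card_Y R hR
  rw [card_omega R H col]
  set q : ℝ := (Fintype.card X : ℝ) with hq
  set y : ℝ := (Fintype.card Y : ℝ) with hy
  set r : ℝ := (Nat.card {p : X × Y // R p.1 p.2} : ℝ) with hr
  set m : ℕ := Nat.card H.edgeSet with hm
  have hq1 : 1 ≤ q := by
    have : 1 ≤ Fintype.card X := Fintype.card_pos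
    rw [hq]
    exact_mod_cast this
  have hy1 : 1 ≤ y := by
    have : 1 ≤ Fintype.card Y := Fintype.card_pos
    rw [hy]
    exact_mod_cast this
  have hq0 : 0 < q := by linarith
  have hy0 : 0 < y := by linarith
  have hr0 : 0 ≤ r := Nat.cast_nonneg _
  have hα : 0 ≤ al R := Nat.cast_nonneg _
  have hβ : ∀ i, 0 ≤ be R i := fun i => Nat.cast_nonneg _
  have hn0 : 0 ≤ nz R := Nat.cast_nonneg _
  let N : V → Finset V := fun v => Finset.univ.filter (fun u => H.Adj u v ∧ col u = true)
  let S : Finset V := Finset.univ.filter (fun v => (N v).Nonempty)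
  have hSmem : ∀ v, v ∈ S → (N v).Nonempty := by
    intro v hv
    exact (Finset.mem_filter.1 hv).2
  have hSnot : ∀ v, v ∉ S → N v = ∅ := by
    intro v hv
    by_contra hne
    exact hv (Finset.mem_filter.2 ⟨Finset.mem_univ _, Finset.nonempty_iff_ne_empty.2 hne⟩)
  have hsum : ∑ v, (N v).card = m := by
    rw [hm, ← card_oriented H col hcol, Nat.card_eq_fintype_card, Fintype.card_subtype,
      Finset.card_eq_sum_card_fiberwise (f := fun d : V × V => d.2) (t := Finset.univ)
        (fun _ _ => Finset.mem_coe.2 (Finset.mem_univ _))]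
    apply Finset.sum_congr rfl
    intro v _
    apply Finset.card_bij (fun u _ => (u, v))
    · intro u hu
      have hu' := (Finset.mem_filter.1 hu).2
      simp only [Finset.mem_filter, Finset.mem_univ, true_and, and_true]
      exact hu'
    · intro u _ u' _ h
      exact (Prod.ext_iff.1 h).1
    · rintro ⟨u, v'⟩ hd
      simp only [Finset.mem_filter, Finset.mem_univ, true_and] at hd
      obtain ⟨hd1, rfl⟩ := hd
      exact ⟨u, Finset.mem_filter.2 ⟨Finset.mem_univ _, hd1⟩, rfl⟩
  have hcnt : ∀ (σ : V → X) (v : V),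
      (Nat.card {y : Y // ∀ u, H.Adj u v → col u = true → R (σ u) y} : ℝ)
        = (Nat.card {y : Y // ∀ u ∈ N v, R (σ u) y} : ℝ) := by
    intro σ v
    congr 1
    apply Nat.card_congr
    apply Equiv.subtypeEquivRight
    intro y
    simp only [N, Finset.mem_filter, Finset.mem_univ, true_and, and_imp]
  have hS : ∀ (σ : V → X) (v : V), v ∈ S →
      (Nat.card {y : Y // ∀ u, H.Adj u v → col u = true → R (σ u) y} : ℝ)
        = al R + ∑ i, be R i * (if ∀ u ∈ N v, σ u = i then 1 else 0) := by
    intro σ v hv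
    rw [hcnt]
    convert count_y R hR (N v) (hSmem v hv) σ
  have hnS : ∀ (σ : V → X) (v : V), v ∉ S →
      (Nat.card {y : Y // ∀ u, H.Adj u v → col u = true → R (σ u) y} : ℝ) = y := by
    intro σ v hv
    rw [hcnt, hSnot v hv, hy]
    congr 1
    rw [Nat.card_eq_fintype_card, Fintype.card_subtype]
    simp
  have hΨ : ∑ σ : V → X, ∏ v,
      (Nat.card {y : Y // ∀ u, H.Adj u v → col u = true → R (σ u) y} : ℝ)
      = y ^ (Sᶜ).card * ∑ σ : V → X, ∏ v ∈ S,
          (al R + ∑ i, be R i * (if ∀ u ∈ N v, σ u = i then 1 else 0)) := by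
    rw [Finset.mul_sum]
    apply Finset.sum_congr rfl
    intro σ _
    rw [← Finset.prod_mul_prod_compl S, Finset.prod_congr rfl (fun v hv => hS σ v hv),
      Finset.prod_congr rfl (fun v hv => hnS σ v (Finset.mem_compl.1 hv)), Finset.prod_const,
      mul_comm]
  rw [hΨ]
  have hcorr := corr S N (al R) (be R) hα hβ
  rw [← hq] at hcorr
  have hnum : ∀ v ∈ S,
      y * (r / (q * y)) ^ (N v).card ≤ al R + (∑ i, be R i) / q ^ (N v).card := by
    intro v hv
    have hd : 1 ≤ (N v).card := Finset.card_pos.2 (hSmem v hv)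
    have h := pendant_numeric (al R) (∑ i, be R i) (nz R) q (N v).card hα
      (Finset.sum_nonneg fun i _ => hβ i) hn0 (by rw [← hyY]; exact hy0) hq1 hd
    rw [← hyY, ← hrR] at h
    exact h
  have hprod : ∏ v ∈ S, (y * (r / (q * y)) ^ (N v).card)
      ≤ ∏ v ∈ S, (al R + (∑ i, be R i) / q ^ (N v).card) :=
    Finset.prod_le_prod
      (fun v _ => mul_nonneg hy0.le (pow_nonneg (div_nonneg hr0 (mul_pos hq0 hy0).le) _)) hnum
  have hprod_eq : ∏ v ∈ S, (y * (r / (q * y)) ^ (N v).card)
      = y ^ S.card * (r / (q * y)) ^ m := by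
    rw [Finset.prod_mul_distrib, Finset.prod_const, Finset.prod_pow_eq_pow_sum]
    congr 2
    rw [← hsum]
    apply Finset.sum_subset (Finset.subset_univ _)
    intro v _ hv
    rw [hSnot v hv]
    rfl
  rw [hprod_eq] at hprod
  have hcard : S.card + (Sᶜ).card = Fintype.card V := Finset.card_add_card_compl S
  have h1 : y ^ (Sᶜ).card * (q ^ Fintype.card V * (y ^ S.card * (r / (q * y)) ^ m))
      ≤ y ^ (Sᶜ).card * ∑ σ : V → X, ∏ v ∈ S,
          (al R + ∑ i, be R i * (if ∀ u ∈ N v, σ u = i then 1 else 0)) :=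
    mul_le_mul_of_nonneg_left
      (le_trans (mul_le_mul_of_nonneg_left hprod (pow_nonneg hq0.le _)) hcorr)
      (pow_nonneg hy0.le _)
  have h2 : y ^ (Sᶜ).card * (q ^ Fintype.card V * (y ^ S.card * (r / (q * y)) ^ m)) * (q * y) ^ m
      = (q * y) ^ Fintype.card V * r ^ m := by
    have hqy : (q * y) ^ m ≠ 0 := pow_ne_zero _ (mul_pos hq0 hy0).ne'
    rw [div_pow, ← hcard]
    field_simp
    ring
  calc (q * y) ^ Fintype.card V * r ^ m
      = y ^ (Sᶜ).card * (q ^ Fintype.card V * (y ^ S.card * (r / (q * y)) ^ m)) * (q * y) ^ m :=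
        h2.symm
    _ ≤ _ := mul_le_mul_of_nonneg_right h1 (pow_nonneg (mul_pos hq0 hy0).le _)

end Vale.Agent.P050
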