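import Vale.Agent.Lib.P050.PendantCount

/-!
# P050: assembly for pendant targets
-/

namespace Vale.Agent.P050

open SimpleGraph

/-- From the count of pairs `(σ, τ)` to the one-sided count of homomorphisms. -/
theorem oneSided_pendant {X Y V : Type} [Fintype X] [Fintype Y] [Nonempty X] [Nonempty Y]
    [Fintype V] (R : X → Y → Prop) (hR : IsPendantRel R)
    (H : SimpleGraph V) (col : V → Bool) (hcol : ∀ u v, H.Adj u v → col u ≠ col v) :
    ((Fintype.card X : ℝ) ^ Nat.card {v // col v = true} *
        (Fintype.card Y : ℝ) ^ Nat.card {v // col v = false}) *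
        (Nat.card {p : X × Y // R p.1 p.2} : ℝ) ^ Nat.card H.edgeSet ≤
      (Nat.card {f : H →g bip R // ∀ v, (f v).isLeft = col v} : ℝ) *
        ((Fintype.card X : ℝ) * (Fintype.card Y : ℝ)) ^ Nat.card H.edgeSet := by
  classical
  have hpsi := psi_pendant R hR H col hcol
  have hfib := fibre_bound R H col hcol
  have hx : (0 : ℝ) < Fintype.card X := by exact_mod_cast Fintype.card_pos
  have hy : (0 : ℝ) < Fintype.card Y := by exact_mod_cast Fintype.card_pos
  have hab : Nat.card {v // col v = true} + Nat.card {v // col v = false} = Fintype.card V := by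
    have h3 := Fintype.card_subtype_compl (fun v => col v = true)
    have h4 := Fintype.card_subtype_le (fun v => col v = true)
    have h5 : Fintype.card {v // ¬ col v = true} = Fintype.card {v // col v = false} :=
      Fintype.card_congr (Equiv.subtypeEquivRight (by simp))
    rw [Nat.card_eq_fintype_card, Nat.card_eq_fintype_card]
    omega
  have hfib' : (Nat.card {ω : V → X × Y //
      ∀ u v, H.Adj u v → col u = true → R (ω u).1 (ω v).2} : ℝ) ≤
      (Nat.card {f : H →g bip R // ∀ v, (f v).isLeft = col v} : ℝ) *
        ((Fintype.card Y : ℝ) ^ Nat.card {v // col v = true} *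
          (Fintype.card X : ℝ) ^ Nat.card {v // col v = false}) := by
    exact_mod_cast hfib
  rw [← hab] at hpsi
  generalize (Fintype.card X : ℝ) = x at *
  generalize (Fintype.card Y : ℝ) = y at *
  generalize Nat.card {v // col v = true} = a at *
  generalize Nat.card {v // col v = false} = b at *
  generalize Nat.card H.edgeSet = m at *
  generalize (Nat.card {p : X × Y // R p.1 p.2} : ℝ) = r at *
  generalize (Nat.card {f : H →g bip R // ∀ v, (f v).isLeft = col v} : ℝ) = Φ at *
  generalize (Nat.card {ω : V → X × Y //
      ∀ u v, H.Adj u v → col u = true → R (ω u).1 (ω v).2} : ℝ) = Ψ at *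
  have hpos : 0 < y ^ a * x ^ b := by positivity
  have h1 : (y ^ a * x ^ b) * ((x ^ a * y ^ b) * r ^ m) ≤ (y ^ a * x ^ b) * (Φ * (x * y) ^ m) := by
    calc (y ^ a * x ^ b) * ((x ^ a * y ^ b) * r ^ m) = (x * y) ^ (a + b) * r ^ m := by
          rw [mul_pow x y (a + b), pow_add, pow_add]; ring
      _ ≤ Ψ * (x * y) ^ m := hpsi
      _ ≤ (Φ * (y ^ a * x ^ b)) * (x * y) ^ m :=
          mul_le_mul_of_nonneg_right hfib' (by positivity)
      _ = _ := by ring
  exact le_of_mul_le_mul_left h1 hpos

/-- Sidorenko's inequality for a connected bipartite `H` from the one-sided counts. -/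
theorem sidPair_bip_of {X Y V : Type} [Fintype X] [Fintype Y] [Nonempty X] [Nonempty Y]
    [Fintype V] (R : X → Y → Prop) (H : SimpleGraph V) (hc : H.Connected) (hb : H.IsBipartite)
    (hOne : ∀ col : V → Bool, (∀ u v, H.Adj u v → col u ≠ col v) →
      ((Fintype.card X : ℝ) ^ Nat.card {v // col v = true} *
        (Fintype.card Y : ℝ) ^ Nat.card {v // col v = false}) *
        (Nat.card {p : X × Y // R p.1 p.2} : ℝ) ^ Nat.card H.edgeSet ≤
      (Nat.card {f : H →g bip R // ∀ v, (f v).isLeft = col v} : ℝ) *
        ((Fintype.card X : ℝ) * (Fintype.card Y : ℝ)) ^ Nat.card H.edgeSet) :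
    SidPair H (bip R) := by
  classical
  obtain ⟨C⟩ := hb
  let col : V → Bool := fun v => decide (C v = 0)
  have hcol : ∀ u v, H.Adj u v → col u ≠ col v := by
    intro u v h
    have h1 := C.valid h
    simp only [col]
    revert h1
    generalize C u = c1
    generalize C v = c2
    fin_cases c1 <;> fin_cases c2 <;> simp
  let col' : V → Bool := fun v => !col v
  have hcol' : ∀ u v, H.Adj u v → col' u ≠ col' v := by
    intro u v h h2
    exact hcol u v h (by simpa [col'] using h2)
  have h1 := hOne col hcol
  have h2 := hOne col' hcol'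
  have ea : Nat.card {v // col' v = true} = Nat.card {v // col v = false} :=
    Nat.card_congr (Equiv.subtypeEquivRight (by simp [col']))
  have eb : Nat.card {v // col' v = false} = Nat.card {v // col v = true} :=
    Nat.card_congr (Equiv.subtypeEquivRight (by simp [col']))
  rw [ea, eb] at h2
  have : Finite (H →g bip R) :=
    Finite.of_injective (fun f => (f : V → X ⊕ Y)) DFunLike.coe_injective
  obtain ⟨v0⟩ := hc.nonempty
  have hsum := card_add_card_le (T := H →g bip R) (fun f => ∀ v, (f v).isLeft = col v)
    (fun f => ∀ v, (f v).isLeft = col' v) (by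
      intro f hf hf'
      have := (hf v0).symm.trans (hf' v0)
      simp [col'] at this)
  have hab : Nat.card {v // col v = true} + Nat.card {v // col v = false} = Nat.card V := by
    have h3 := Fintype.card_subtype_compl (fun v => col v = true)
    have h4 := Fintype.card_subtype_le (fun v => col v = true)
    have h5 : Fintype.card {v // ¬ col v = true} = Fintype.card {v // col v = false} :=
      Fintype.card_congr (Equiv.subtypeEquivRight (by simp))
    rw [Nat.card_eq_fintype_card, Nat.card_eq_fintype_card, Nat.card_eq_fintype_card]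
    omega
  have hx : (0 : ℝ) < Fintype.card X := by exact_mod_cast Fintype.card_pos
  have hy : (0 : ℝ) < Fintype.card Y := by exact_mod_cast Fintype.card_pos
  have hV : 1 ≤ Nat.card V := by
    have : Nonempty V := ⟨v0⟩
    exact Nat.card_pos
  have hm := hc.card_vert_le_card_edgeSet_add_one
  have hsum' : (Nat.card {f : H →g bip R // ∀ v, (f v).isLeft = col v} : ℝ) +
      (Nat.card {f : H →g bip R // ∀ v, (f v).isLeft = col' v} : ℝ) ≤ (homs H (bip R) : ℝ) := by
    unfold homs; exact_mod_cast hsum
  have key := numeric_bip (Fintype.card X : ℝ) (Fintype.card Y : ℝ)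
    (Nat.card {p : X × Y // R p.1 p.2} : ℝ) (homs H (bip R) : ℝ)
    (Nat.card {v // col v = true}) (Nat.card {v // col v = false}) (Nat.card H.edgeSet)
    hx hy (by positivity) (by omega) (by omega) (by
      have hpos : (0 : ℝ) ≤ ((Fintype.card X : ℝ) * (Fintype.card Y : ℝ)) ^ Nat.card H.edgeSet := by
        positivity
      nlinarith [mul_le_mul_of_nonneg_right hsum' hpos])
  unfold SidPair edens tdens
  rw [card_edgeSet_bip R, Nat.card_sum, ← hab, Nat.card_eq_fintype_card (α := X),
    Nat.card_eq_fintype_card (α := Y)]
  push_cast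
  exact key

theorem sidTarget_pendant {X Y : Type} [Fintype X] [Fintype Y] [Nonempty X] [Nonempty Y]
    (R : X → Y → Prop) (hR : IsPendantRel R) : SidTarget (bip R) := by
  intro V _ H hb _
  refine sidPair_of_forall_connected (bip R) (fun V' _ H' hc' hb' => ?_) V H hb
  have := Fintype.ofFinite V'
  exact sidPair_bip_of R H' hc' hb' (fun col hcol => oneSided_pendant R hR H' col hcol)

theorem isPendantRel_bool {Y : Type} (R : Bool → Y → Prop) : IsPendantRel R := by
  intro y
  by_cases h : ∀ x, R x y
  · exact Or.inl h
  · right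
    intro x x' hx hx'
    by_contra hne
    apply h
    intro z
    cases x <;> cases x' <;> cases z <;> simp_all

end Vale.Agent.P050
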